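import Vale.Agent.P283R.Pu.St
import Vale.Agent.P283R.H.Pri
import Vale.Agent.P022D.CA.Dep

/-!
# P283R, block PU: complete intersections in regular local rings

The first part (regular sequences are quasi-regular) is adapted from `P236Z/Tate/Qr`.
-/

open IsLocalRing MvPolynomial RingTheory.Sequence

namespace Vale.Agent.P283R.Pu

namespace Cm

variable {R : Type} [CommRing R] {N : ℕ} (s : Fin N → R)

/-- homogeneous of degree `n` in the first `k` variables -/
def Hs (k n : ℕ) (P : MvPolynomial (Fin N) R) : Prop :=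
  ∀ μ, coeff μ P ≠ 0 → μ.degree = n ∧ ∀ i : Fin N, k ≤ i.val → μ i = 0

/-- the ideal of the first `k` elements -/
def II (k : ℕ) : Ideal R := Ideal.span (s '' {i | i.val < k})

variable {s}

theorem Hs.zero (k n : ℕ) : Hs k n (0 : MvPolynomial (Fin N) R) := fun _ h => absurd rfl h

theorem Hs.add {k n : ℕ} {P Q : MvPolynomial (Fin N) R} (hP : Hs k n P) (hQ : Hs k n Q) :
    Hs k n (P + Q) := fun μ h => by
  rw [coeff_add] at h
  by_cases h1 : coeff μ P = 0
  · exact hQ μ (by rwa [h1, zero_add] at h)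
  · exact hP μ h1

theorem Hs.C_mul {k n : ℕ} {P : MvPolynomial (Fin N) R} (hP : Hs k n P) (c : R) :
    Hs k n (C c * P) := fun μ h => hP μ fun h0 => h (by rw [coeff_C_mul, h0, mul_zero])

theorem Hs.sub {k n : ℕ} {P Q : MvPolynomial (Fin N) R} (hP : Hs k n P) (hQ : Hs k n Q) :
    Hs k n (P - Q) := by
  have := hP.add (hQ.C_mul (-1))
  rwa [map_neg, map_one, neg_one_mul, ← sub_eq_add_neg] at this

theorem Hs.mul_X {k n : ℕ} {P : MvPolynomial (Fin N) R} (hP : Hs k n P) {i : Fin N}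
    (hi : i.val < k) : Hs k (n + 1) (P * X i) := fun μ h => by
  rw [coeff_mul_X'] at h
  split_ifs at h with hm
  · obtain ⟨h1, h2⟩ := hP _ h
    have e : μ = μ - Finsupp.single i 1 + Finsupp.single i 1 :=
      (tsub_add_cancel_of_le (Finsupp.single_le_iff.2 (Nat.one_le_iff_ne_zero.2
        (Finsupp.mem_support_iff.1 hm)))).symm
    refine ⟨by rw [e, map_add, h1, Finsupp.degree_single], fun j hj => ?_⟩
    rw [e, Finsupp.add_apply, h2 j hj, Finsupp.single_eq_of_ne (by rintro rfl; omega),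
      add_zero]
  · exact absurd rfl h

theorem Hs.one (k : ℕ) : Hs k 0 (1 : MvPolynomial (Fin N) R) := fun μ h => by
  rw [coeff_one] at h
  split_ifs at h with hm
  · subst hm; simp
  · exact absurd rfl h

theorem prod_mem_pow (I : Ideal R) {σ : Type} (v : σ → R) (μ : σ →₀ ℕ)
    (h : ∀ i, μ i ≠ 0 → v i ∈ I) : (μ.prod fun i k => v i ^ k) ∈ I ^ μ.degree := by
  rw [Finsupp.degree_apply, ← Finset.prod_pow_eq_pow_sum, Finsupp.prod]
  exact Ideal.prod_mem_prod fun i hi =>
    Ideal.pow_mem_pow (h i (Finsupp.mem_support_iff.1 hi)) _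

theorem eval_mem {k n : ℕ} {P : MvPolynomial (Fin N) R} (hP : Hs k n P) (K : Ideal R)
    (hK : ∀ μ, coeff μ P ∈ K) : eval s P ∈ K * II s k ^ n := by
  rw [P.as_sum, map_sum]
  refine Ideal.sum_mem _ fun μ hμ => ?_
  obtain ⟨h1, h2⟩ := hP μ (mem_support_iff.1 hμ)
  rw [eval_monomial, ← h1]
  refine Ideal.mul_mem_mul (hK μ) (prod_mem_pow _ _ _ fun i hi => ?_)
  exact Ideal.subset_span ⟨i, by by_contra hc; exact hi (h2 i (not_lt.1 hc)), rfl⟩

theorem exists_of_mem_pow {k n : ℕ} {z : R} (hz : z ∈ II s k ^ n) :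
    ∃ P, Hs k n P ∧ eval s P = z := by
  induction n generalizing z with
  | zero => exact ⟨C z * 1, (Hs.one k).C_mul z, by simp⟩
  | succ n ih =>
    rw [pow_succ] at hz
    refine Submodule.mul_induction_on hz (fun a ha b hb => ?_) ?_
    · obtain ⟨P, hP, rfl⟩ := ih ha
      induction hb using Submodule.span_induction with
      | mem b hb =>
        obtain ⟨i, hi, rfl⟩ := hb
        exact ⟨P * X i, hP.mul_X hi, by simp⟩
      | zero => exact ⟨0, Hs.zero _ _, by simp⟩
      | add x y _ _ hx hy =>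
        obtain ⟨Q, hQ, e⟩ := hx
        obtain ⟨Q', hQ', e'⟩ := hy
        exact ⟨Q + Q', hQ.add hQ', by rw [map_add, e, e', mul_add]⟩
      | smul c x _ hx =>
        obtain ⟨Q, hQ, e⟩ := hx
        exact ⟨C c * Q, hQ.C_mul c, by rw [map_mul, eval_C, e, smul_eq_mul]; ring⟩
    · rintro x y ⟨Q, hQ, rfl⟩ ⟨Q', hQ', rfl⟩
      exact ⟨Q + Q', hQ.add hQ', map_add _ _ _⟩

theorem exists_of_mem_mul {k n : ℕ} (K : Ideal R) {z : R} (hz : z ∈ K * II s k ^ n) :
    ∃ P, Hs k n P ∧ (∀ μ, coeff μ P ∈ K) ∧ eval s P = z := by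
  refine Submodule.mul_induction_on hz (fun a ha b hb => ?_) ?_
  · obtain ⟨P, hP, rfl⟩ := exists_of_mem_pow hb
    exact ⟨C a * P, hP.C_mul a, fun μ => by rw [coeff_C_mul]; exact K.mul_mem_right _ ha, by simp⟩
  · rintro x y ⟨Q, hQ, hK, rfl⟩ ⟨Q', hQ', hK', rfl⟩
    exact ⟨Q + Q', hQ.add hQ', fun μ => by rw [coeff_add]; exact K.add_mem (hK μ) (hK' μ),
      map_add _ _ _⟩

variable (s) in
/-- quasi-regularity of the first `k` elements -/
def QQ (k : ℕ) : Prop :=
  ∀ n P, Hs k n P → eval s P ∈ II s k ^ (n + 1) → ∀ μ, coeff μ P ∈ II s k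

theorem qq_of_zero {k n : ℕ} (h : ∀ P, Hs k n P → eval s P = 0 → ∀ μ, coeff μ P ∈ II s k)
    (P : MvPolynomial (Fin N) R) (hP : Hs k n P) (hz : eval s P ∈ II s k ^ (n + 1)) (μ) :
    coeff μ P ∈ II s k := by
  rw [pow_succ'] at hz
  obtain ⟨G, hG, hK, e⟩ := exists_of_mem_mul _ hz
  have := h (P - G) (hP.sub hG) (by rw [map_sub, e, sub_self]) μ
  rw [coeff_sub] at this
  simpa using Ideal.add_mem _ this (hK μ)

theorem QQ.colon {k : ℕ} (h : QQ s k) {x : R} (hx : ∀ y, x * y ∈ II s k → y ∈ II s k) (n : ℕ)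
    (y : R) (hy : x * y ∈ II s k ^ n) : y ∈ II s k ^ n := by
  induction n with
  | zero => simp
  | succ n ih =>
    obtain ⟨F, hF, rfl⟩ := exists_of_mem_pow (ih (Ideal.pow_le_pow_right (Nat.le_succ n) hy))
    rw [pow_succ']
    refine eval_mem hF _ fun μ => hx _ ?_
    have := h n (C x * F) (hF.C_mul x) (by simpa using hy) μ
    rwa [coeff_C_mul] at this

theorem II_mono (k : ℕ) : II s k ≤ II s (k + 1) :=
  Ideal.span_mono (Set.image_mono fun i (hi : i.val < k) => Nat.lt_succ_of_lt hi)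

theorem QQ.succ {i : Fin N} (h : QQ s i) (hx : ∀ y, s i * y ∈ II s i → y ∈ II s i) :
    QQ s (i + 1) := by
  have hi : s i ∈ II s (i + 1) := Ideal.subset_span ⟨i, Nat.lt_succ_self _, rfl⟩
  intro n
  induction n using Nat.strong_induction_on with
  | _ n ih =>
    refine qq_of_zero fun P hP h0 μ => ?_
    have hG : Hs i n (P.modMonomial (Finsupp.single i 1)) := fun μ hμ => by
      by_cases hle : Finsupp.single i 1 ≤ μ
      · exact absurd (coeff_modMonomial_of_le P hle) hμ
      · rw [coeff_modMonomial_of_not_le P hle] at hμ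
        refine ⟨(hP μ hμ).1, fun j hj => ?_⟩
        rcases hj.eq_or_lt with hj | hj
        · rw [Finsupp.single_le_iff] at hle
          rw [← Fin.ext hj]
          omega
        · exact (hP μ hμ).2 j hj
    have e := congrArg (eval s) (divMonomial_add_modMonomial_single P i)
    rw [h0, map_add, map_mul, eval_X] at e
    have h1 : eval s (P.divMonomial (Finsupp.single i 1)) ∈ II s i ^ n := by
      refine h.colon hx n _ ?_
      rw [eq_neg_of_add_eq_zero_left e]
      have := eval_mem (s := s) hG ⊤ fun _ => trivial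
      rw [Ideal.top_mul] at this
      exact neg_mem this
    by_cases hle : Finsupp.single i 1 ≤ μ
    · obtain ⟨ν, rfl⟩ := exists_add_of_le hle
      by_cases hc : coeff (Finsupp.single i 1 + ν) P = 0
      · rw [hc]; exact zero_mem _
      · have hn := (hP _ hc).1
        rw [map_add, Finsupp.degree_single] at hn
        rw [← coeff_divMonomial]
        refine ih ν.degree (by omega) _ (fun ν' hν => ?_) ?_ ν
        · rw [coeff_divMonomial] at hν
          obtain ⟨h2, h3⟩ := hP _ hν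
          rw [map_add, Finsupp.degree_single] at h2
          refine ⟨by omega, fun j hj => ?_⟩
          have := h3 j hj
          rw [Finsupp.add_apply] at this
          omega
        · rw [show ν.degree + 1 = n by omega]
          exact Ideal.pow_right_mono (II_mono _) n h1
    · obtain ⟨H, hH, e2⟩ := exists_of_mem_pow h1
      have := h n _ (hG.add (hH.C_mul (s i))) (by
        rw [map_add, map_mul, eval_C, e2, add_comm (eval s _), e]; exact zero_mem _) μ
      rw [coeff_add, coeff_C_mul, coeff_modMonomial_of_not_le P hle] at this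
      have h4 := Ideal.sub_mem _ (II_mono _ this) (Ideal.mul_mem_right (coeff μ H) _ hi)
      rwa [add_sub_cancel_right] at h4

theorem qq_zero : QQ s 0 := fun n P hP h μ => by
  by_cases hc : coeff μ P = 0
  · rw [hc]; exact zero_mem _
  · have h0 : ∀ ν, coeff ν P ≠ 0 → ν = 0 := fun ν hν =>
      Finsupp.ext fun i => (hP ν hν).2 i (Nat.zero_le _)
    obtain rfl := h0 μ hc
    have e : P = C (coeff 0 P) := by
      ext ν
      rw [coeff_C]
      split_ifs with hν
      · rw [hν]
      · by_contra hc'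
        exact hν (h0 ν hc').symm
    rw [e, eval_C] at h
    exact Ideal.pow_le_self (Nat.succ_ne_zero n) h

theorem II_top : II s N = Ideal.span (Set.range s) := by
  rw [II, show {i : Fin N | i.val < N} = Set.univ from Set.eq_univ_of_forall fun i => i.2,
    Set.image_univ]

theorem hs_iff {n : ℕ} {P : MvPolynomial (Fin N) R} : Hs N n P ↔ P.IsHomogeneous n := by
  constructor
  · intro h μ hμ
    have := (h μ hμ).1
    rwa [Finsupp.degree_eq_weight_one] at this
  · intro h μ hμ
    refine ⟨?_, fun i hi => absurd i.2 (not_lt.2 hi)⟩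
    by_contra hc
    exact hμ (h.coeff_eq_zero hc)

theorem qq_top (hr : ∀ (i : Fin N) (y : R), s i * y ∈ II s i → y ∈ II s i) : QQ s N := by
  have key : ∀ k ≤ N, QQ s k := by
    intro k hk
    induction k with
    | zero => exact qq_zero
    | succ k ih => exact QQ.succ (i := ⟨k, hk⟩) (ih (by omega)) (hr ⟨k, hk⟩)
  exact key N le_rfl

theorem ofList_take (k : ℕ) (hk : k < N) :
    (Ideal.ofList ((List.ofFn s).take k) • ⊤ : Submodule R R) = II s k := by
  rw [smul_eq_mul, Ideal.mul_top, Ideal.ofList, II]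
  congr 1
  ext z
  simp only [Set.mem_ofPred_eq, List.mem_iff_getElem, List.getElem_take, List.getElem_ofFn,
    List.length_take, List.length_ofFn, Set.mem_image]
  constructor
  · rintro ⟨i, hi, rfl⟩
    exact ⟨⟨i, by omega⟩, by simp only; omega, rfl⟩
  · rintro ⟨i, hi, rfl⟩
    exact ⟨i, by have := i.2; omega, rfl⟩

theorem weak_of (h : ∀ (i : Fin N) (y : R), s i * y ∈ II s i → y ∈ II s i) :
    IsWeaklyRegular R (List.ofFn s) := by
  rw [isWeaklyRegular_iff]
  intro i hi
  have hi' : i < N := by simpa using hi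
  rw [ofList_take _ hi', List.getElem_ofFn, isSMulRegular_quotient_iff_mem_of_smul_mem]
  exact h ⟨i, hi'⟩

theorem II_succ (i : Fin N) : II s (i + 1) = II s i ⊔ Ideal.span {s i} := by
  rw [II, II, ← Ideal.span_union, ← Set.image_singleton, ← Set.image_union]
  congr 2
  ext j
  simp only [Set.mem_ofPred_eq, Set.mem_union, Set.mem_singleton_iff, Fin.ext_iff]
  omega

open Vale.Agent.P298.H25 Vale.Agent.P022D.CA

variable [IsLocalRing R] [IsNoetherianRing R]

/-- the generators of a prime of the right height are a regular sequence -/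
theorem reg (hp : (Ideal.span (Set.range s)).IsPrime)
    (hh : (N : ℕ∞) ≤ (Ideal.span (Set.range s)).height) (i : Fin N) (y : R)
    (h : s i * y ∈ II s i) : y ∈ II s i := by
  have hh' : (Fintype.card (Fin N) : ℕ∞) ≤ (Ideal.span (Set.range s)).height := by simpa using hh
  have e : II s i = Ideal.span (s '' (Finset.univ.filter fun j : Fin N => j.val < i.val :
      Finset (Fin N))) := by
    rw [II]
    congr 2
    ext j
    simp
  rw [e] at h ⊢
  refine ((H.prime_loc hp hh' _).mem_or_mem h).resolve_left fun h1 => ?_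
  simpa using H.mem_loc hp hh' h1

theorem step {I : Ideal R} (hI : I ≤ maximalIdeal R) {x : R} (hx : x ∈ maximalIdeal R) {n j : ℕ}
    (h : DepthGE R (R ⧸ I) (n - j)) (hreg : ∀ a, x * a ∈ I → a ∈ I) :
    DepthGE R (R ⧸ (I ⊔ Ideal.span {x})) (n - (j + 1)) := by
  rcases Nat.eq_zero_or_pos (n - j) with h0 | h0
  · intro i hi
    omega
  · refine depth_step (ne_top_of_le_ne_top (maximalIdeal.isMaximal R).ne_top hI) hx ?_ hreg
    rwa [show n - (j + 1) + 1 = n - j by omega]

omit [IsLocalRing R] [IsNoetherianRing R] in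
theorem ht_add (P : Ideal R) [hP : P.IsPrime] :
    (P.height : WithBot ℕ∞) + ringKrullDim (R ⧸ P) ≤ ringKrullDim R := by
  let p : PrimeSpectrum R := ⟨P, hP⟩
  have : Nonempty (PrimeSpectrum R) := ⟨p⟩
  have e : PrimeSpectrum.zeroLocus (R := R) P = Set.Ici p := by
    ext q
    exact Iff.rfl
  have e2 : P.height = Order.height p := PrimeSpectrum.height_eq_orderHeight p
  rw [ringKrullDim_quotient, e, ← Order.coheight_eq_krullDim_Ici, ringKrullDim,
    Order.krullDim_eq_iSup_height_add_coheight_of_nonempty, e2, ← WithBot.coe_add,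
    WithBot.coe_le_coe]
  exact le_iSup (fun a : PrimeSpectrum R => Order.height a + Order.coheight a) p

/-- a regular element in `C` -/
theorem avoid {I C : Ideal R} {n j : ℕ} (hn : ringKrullDim R = n)
    (h : DepthGE R (R ⧸ I) (n - j))
    (hC : ∀ P : Ideal R, P.IsPrime → I ≤ P → P.height ≤ j → ¬ C ≤ P) :
    ∃ x ∈ C, ∀ a, x * a ∈ I → a ∈ I := by
  by_contra hcon
  push Not at hcon
  have hsub : (C : Set R) ⊆ ⋃ P ∈ associatedPrimes R (R ⧸ I), ((id P : Ideal R) : Set R) := by
    intro x hx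
    obtain ⟨a, ha, ha'⟩ := hcon x hx
    obtain ⟨P, hP, hle⟩ := exists_ass ha'
    exact Set.mem_biUnion (x := P) hP (hle x ha)
  obtain ⟨P, hP, hle⟩ := (Ideal.subset_union_prime_finite
    (associatedPrimes.finite R (R ⧸ I)) (f := id) ⊤ ⊤ (fun P hP _ _ => hP.isPrime)).1 hsub
  have pp : P.IsPrime := hP.isPrime
  refine hC P pp (le_of_ass hP) ?_ hle
  have h1 := (add_le_add_right (ass_dim h hP) (P.height : WithBot ℕ∞)).trans (ht_add P)
  rw [hn] at h1
  have h2 : P.height + ((n - j : ℕ) : ℕ∞) ≤ n := WithBot.coe_le_coe.1 (by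
    rw [WithBot.coe_add]
    exact h1)
  obtain ⟨m, hm⟩ := ENat.ne_top_iff_exists.1
    (ne_top_of_le_ne_top (ENat.natCast_ne_top n) (le_self_add.trans h2))
  rw [← hm] at h2 ⊢
  have h3 : m + (n - j) ≤ n := by exact_mod_cast h2
  exact_mod_cast (by omega : m ≤ j)

end Cm

open Cm Vale.Agent.P298.H25 Vale.Agent.P022D.CA

/-- regular local rings have full depth -/
theorem Cm.full (L : Type) [CommRing L] [IsRegularLocalRing L] :
    ∃ n : ℕ, ringKrullDim L = n ∧ DepthGE L (L ⧸ (⊥ : Ideal L)) n := by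
  obtain ⟨t, ht, hs⟩ := Submodule.FG.exists_span_finset_card_eq_spanFinrank
    (IsNoetherian.noetherian (maximalIdeal L))
  have hn : ringKrullDim L = t.card := by
    rw [← IsRegularLocalRing.spanFinrank_maximalIdeal, ht]
  let x : Fin t.card → L := fun i => t.equivFin.symm i
  have e : Ideal.span (Set.range x) = maximalIdeal L := by
    rw [← hs]
    congr 1
    ext a
    exact ⟨fun ⟨i, hi⟩ => hi ▸ (t.equivFin.symm i).2, fun h => ⟨t.equivFin ⟨a, h⟩, by simp [x]⟩⟩
  have hm : ∀ r ∈ List.ofFn x, r ∈ maximalIdeal L := fun r hr =>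
    e ▸ Ideal.subset_span ((List.mem_ofFn' x r).1 hr)
  have w := weak_of (reg (s := x) (e ▸ inferInstance) (by
    rw [e, ← WithBot.coe_le_coe, maximalIdeal_height_eq_ringKrullDim, hn]
    rfl))
  have := DepthGE.of_isRegular hm (IsRegular.of_isWeaklyRegular_of_mem_maximalIdeal L hm w)
  rw [List.length_ofFn] at this
  exact ⟨_, hn, depth_congr (Submodule.quotEquivOfEqBot (⊥ : Ideal L) rfl).symm this⟩

/-- **CM** -/
theorem cm : CM := by
  intro L K _ _ _ c φ f hk hh
  have hp : (Id f).IsPrime := by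
    have : Id f = RingHom.ker φ := Ideal.ext fun a => (hk a).symm
    exact this ▸ RingHom.ker_isPrime φ
  have hr := reg hp hh.ge
  refine ⟨fun n Φ hΦ h => ?_, fun κ w hw C hC y hy => ?_⟩
  · ext μ
    have := qq_top hr n Φ (hs_iff.2 hΦ) (by rwa [II_top]) μ
    rw [II_top] at this
    rw [coeff_map, (hk _).2 this, coeff_zero]
  by_cases hu : IsUnit y
  · obtain ⟨v, hv⟩ := hu.exists_right_inv
    have k : ∀ n, φ n = φ y * φ (v * n) := fun n => by rw [← map_mul, ← mul_assoc, hv, one_mul]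
    exact ⟨0, zero_mem _, 0, zero_mem _, fun n _ _ => ⟨_, k n⟩,
      fun n _ _ _ => ⟨v * n, 0, by simpa using k n⟩⟩
  by_cases hT : C = ⊤
  · subst hT
    exact ⟨1, trivial, 1, trivial, fun n b h => ⟨b, by simpa using h⟩,
      fun n b b' h => ⟨b, b', by simpa using h⟩⟩
  obtain ⟨n, hn, h0⟩ := Cm.full L
  have fm : Id f ≤ maximalIdeal L := le_maximalIdeal hp.ne_top
  have im : ∀ j, II f j ≤ Id f := fun j => Ideal.span_mono (Set.image_subset_range _ _)
  have d0 : ∀ j ≤ c, DepthGE L (L ⧸ II f j) (n - j) := by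
    intro j hj
    induction j with
    | zero => rwa [show II f 0 = ⊥ by simp [II]]
    | succ j ih =>
      rw [II_succ (s := f) ⟨j, hj⟩]
      exact step ((im j).trans fm) (fm (Ideal.subset_span ⟨_, rfl⟩)) (ih (by omega)) (hr ⟨j, hj⟩)
  have d1 := d0 c le_rfl
  rw [II_top] at d1
  have ym : y ∈ maximalIdeal L := hu
  have d2 := step fm ym d1 fun a ha =>
    (hp.mem_or_mem ha).resolve_left fun h => hy ((hk y).2 h)
  have av : ∀ (I : Ideal L) (j : ℕ), Id f ≤ I → j ≤ c + 2 →
      ∀ P : Ideal L, P.IsPrime → I ≤ P → P.height ≤ j → ¬ C ≤ P := fun I j hI hj P pp h1 h2 h3 => by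
    obtain ⟨k, hk⟩ := hw P pp (hI.trans h1) (h2.trans (by exact_mod_cast hj))
    obtain ⟨i, hi⟩ := hC k
    exact hk (pp.mem_of_pow_mem i (h3 hi))
  obtain ⟨z₁, m₁, r₁⟩ := avoid hn d2 (av _ _ le_sup_left (by omega))
  have d3 := step (sup_le fm ((Ideal.span_singleton_le_iff_mem _).2 ym))
    (le_maximalIdeal hT m₁) d2 r₁
  obtain ⟨z₂, m₂, r₂⟩ := avoid hn d3 (av _ _ (le_sup_left.trans le_sup_left) le_rfl)
  have k₁ : ∀ a, a ∈ Id f ⊔ Ideal.span {y} ↔ ∃ b, φ a = φ y * φ b := fun a => by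
    rw [sup_comm, Ideal.mem_span_singleton_sup]
    constructor
    · rintro ⟨b, r, hr, rfl⟩
      exact ⟨b, by rw [map_add, (hk r).2 hr, map_mul, add_zero, mul_comm]⟩
    · rintro ⟨b, hb⟩
      exact ⟨b, a - b * y, (hk _).1 (by rw [map_sub, map_mul, hb]; ring), by ring⟩
  have k₂ : ∀ a, a ∈ Id f ⊔ Ideal.span {y} ⊔ Ideal.span {z₁} ↔
      ∃ b b', φ a = φ y * φ b + φ z₁ * φ b' := fun a => by
    rw [sup_comm, Ideal.mem_span_singleton_sup]
    constructor
    · rintro ⟨b', r, hr, rfl⟩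
      obtain ⟨b, hb⟩ := (k₁ r).1 hr
      exact ⟨b, b', by rw [map_add, hb, map_mul]; ring⟩
    · rintro ⟨b, b', hb⟩
      exact ⟨b', a - b' * z₁, (k₁ _).2 ⟨b, by rw [map_sub, map_mul, hb]; ring⟩, by ring⟩
  exact ⟨z₁, m₁, z₂, m₂, fun n b h => (k₁ n).1 (r₁ n ((k₁ _).2 ⟨b, by rw [map_mul, h]⟩)),
    fun n b b' h => (k₂ n).1 (r₂ n ((k₂ _).2 ⟨b, b', by rw [map_mul, h]⟩))⟩

end Vale.Agent.P283R.Pu
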