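import Vale.Agent.P283R.Pu.St
import Mathlib.RingTheory.Localization.AtPrime.Basic
import Mathlib.Algebra.TrivSqZeroExt.Basic

/-!
# P283R, block PU: the completion
-/

open Set MvPolynomial

noncomputable section

namespace Vale.Agent.P283R.Pu

namespace Cpl

variable {O E : Type} [CommRing O] [CommRing E] {m : Ideal O} {ι : O →+* E} {J : ℕ → Ideal E}

/-- `E` is the `m`-adic completion of `O` -/
structure Cp (m : Ideal O) (ι : O →+* E) (J : ℕ → Ideal E) : Prop where
  anti : Antitone J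
  pow : ∀ n x, ι x ∈ J n ↔ x ∈ m ^ n
  den : ∀ e n, ∃ x, e - ι x ∈ J n
  sep : ∀ e, (∀ n, e ∈ J n) → e = 0
  cpl : ∀ s : ℕ → E, (∀ n, s (n + 1) - s n ∈ J n) → ∃ e, ∀ n, e - s n ∈ J n

theorem exists_cp (m : Ideal O) : ∃ (E : Type) (_ : CommRing E) (ι : O →+* E) (J : ℕ → Ideal E),
    Cp m ι J := by
  let fc : ∀ n, O ⧸ m ^ (n + 1) →+* O ⧸ m ^ n := fun n =>
    Ideal.Quotient.factor (Ideal.pow_le_pow_right n.le_succ)
  let pr : ∀ n, (∀ n, O ⧸ m ^ n) →+* O ⧸ m ^ n := Pi.evalRingHom fun n => O ⧸ m ^ n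
  let S : Subring (∀ n, O ⧸ m ^ n) := ⨅ n, ((fc n).comp (pr (n + 1))).eqLocus (pr n)
  have hS : ∀ x, x ∈ S ↔ ∀ n, fc n (x (n + 1)) = x n := fun x => Subring.mem_iInf
  let J : ℕ → Ideal S := fun n => RingHom.ker ((pr n).comp S.subtype)
  have hJ : ∀ n (x : S), x ∈ J n ↔ x.1 n = 0 := fun _ _ => Iff.rfl
  refine ⟨S, inferInstance, (RingHom.pi fun n => Ideal.Quotient.mk (m ^ n)).codRestrict S
    fun x => (hS _).2 fun n => rfl, J, antitone_nat_of_succ_le fun n x hx => ?_,
    fun n x => Ideal.Quotient.eq_zero_iff_mem, fun e n => ?_,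
    fun e h => Subtype.ext (funext h), fun s h => ⟨⟨fun n => (s n).1 n, (hS _).2 fun n => ?_⟩,
      fun n => sub_self ((s n).1 n)⟩⟩
  · rw [hJ, ← (hS _).1 x.2 n, (hJ _ _).1 hx, map_zero]
  · obtain ⟨x, hx⟩ := Ideal.Quotient.mk_surjective (e.1 n)
    exact ⟨x, sub_eq_zero.2 hx.symm⟩
  · exact ((hS _).1 (s (n + 1)).2 n).trans (sub_eq_zero.1 (h n))

theorem Cp.lift (h : Cp m ι J) {e : E} {x : O} {a b : ℕ} (ab : a ≤ b) (he : e ∈ J a)
    (hx : e - ι x ∈ J b) : x ∈ m ^ a :=
  (h.pow a x).1 (by simpa using sub_mem he (h.anti ab hx))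

theorem Cp.top (h : Cp m ι J) : J 0 = ⊤ := eq_top_iff.2 fun e _ => by
  obtain ⟨x, hx⟩ := h.den e 0
  simpa using add_mem hx ((h.pow 0 x).2 (by simp))

theorem Cp.mul (h : Cp m ι J) (a b : ℕ) (e e' : E) (he : e ∈ J a) (he' : e' ∈ J b) :
    e * e' ∈ J (a + b) := by
  obtain ⟨x, hx⟩ := h.den e (a + b)
  obtain ⟨y, hy⟩ := h.den e' (a + b)
  have := (h.pow (a + b) (x * y)).2 (pow_add m a b ▸ Ideal.mul_mem_mul
    (h.lift (Nat.le_add_right a b) he hx) (h.lift (Nat.le_add_left b a) he' hy))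
  rw [show e * e' = ι (x * y) + (e' * (e - ι x) + ι x * (e' - ι y)) by rw [map_mul]; ring]
  exact add_mem this (add_mem (Ideal.mul_mem_left _ _ hx) (Ideal.mul_mem_left _ _ hy))

theorem Cp.near (h : Cp m ι J) {e : E} {x y : O} {n : ℕ} (hx : e - ι x ∈ J n)
    (hy : e - ι y ∈ J n) : x - y ∈ m ^ n :=
  (h.pow n _).1 (by simpa using sub_mem hy hx)

theorem Cp.unit (h : Cp m ι J) (hu : ∀ x, x ∉ m → IsUnit x) {e : E} (he : e ∉ J 1) : IsUnit e := by
  choose x hx using h.den e
  have : ∀ n, ∃ y, x (n + 1) * y = 1 := fun n => (hu _ fun c => he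
    ((Submodule.sub_mem_iff_left _ ((h.pow 1 _).2 (by rwa [pow_one]))).1
      (h.anti (by omega : 1 ≤ n + 1) (hx (n + 1))))).exists_right_inv
  choose y hy using this
  obtain ⟨e', h'⟩ := h.cpl (fun n => ι (y n)) fun n => by
    have := h.near (h.anti n.le_succ (hx (n + 1))) (h.anti (by omega) (hx (n + 1 + 1)))
    rw [← map_sub, h.pow, show y (n + 1) - y n = y n * y (n + 1) * (x (n + 1) - x (n + 1 + 1)) by
      linear_combination y n * hy (n + 1) - y (n + 1) * hy n]
    exact Ideal.mul_mem_left _ _ this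
  refine IsUnit.of_mul_eq_one e' (sub_eq_zero.1 (h.sep _ fun n => ?_))
  rw [show e * e' - 1 = e * (e' - ι (y n)) + ι (y n) * (e - ι (x (n + 1))) by
    rw [← map_one ι, ← hy n, map_mul]; ring]
  exact add_mem (Ideal.mul_mem_left _ _ (h' n))
    (Ideal.mul_mem_left _ _ (h.anti n.le_succ (hx (n + 1))))

theorem Cp.res {K : Type} [Field K] (h : Cp m ι J) (ψ : O →+* K) (hψ : ∀ x, ψ x = 0 ↔ x ∈ m) :
    ∃ ρ : E →+* K, (∀ x, ρ (ι x) = ψ x) ∧ ∀ e, ρ e = 0 ↔ e ∈ J 1 := by
  choose x hx using fun e => h.den e 1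
  have k : ∀ e y, e - ι y ∈ J 1 → ψ (x e) = ψ y := fun e y hy => by
    rw [← sub_eq_zero, ← map_sub, hψ, ← pow_one m]
    exact h.near (hx e) hy
  refine ⟨{ toFun := fun e => ψ (x e)
            map_one' := (k 1 1 (by simp)).trans (map_one _)
            map_zero' := (k 0 0 (by simp)).trans (map_zero _)
            map_mul' := fun a b => (k _ (x a * x b) ?_).trans (map_mul _ _ _)
            map_add' := fun a b => (k _ (x a + x b) ?_).trans (map_add _ _ _) },
    fun y => k _ y (by simp), fun e => (hψ _).trans ⟨fun c => ?_, fun c => ?_⟩⟩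
  · rw [show a * b - ι (x a * x b) = b * (a - ι (x a)) + ι (x a) * (b - ι (x b)) by
      rw [map_mul]; ring]
    exact add_mem (Ideal.mul_mem_left _ _ (hx a)) (Ideal.mul_mem_left _ _ (hx b))
  · rw [map_add, add_sub_add_comm]
    exact add_mem (hx a) (hx b)
  · exact (Submodule.sub_mem_iff_left _ ((h.pow 1 _).2 (by rwa [pow_one]))).1 (hx e)
  · exact pow_one m ▸ h.lift le_rfl c (hx e)

theorem Cp.der (h : Cp m ι J) (δ : O →+ E) (hδ : ∀ x y, δ (x * y) = ι x * δ y + ι y * δ x) :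
    ∃ d : E → E, Dr d ∧ (∀ x, d (ι x) = δ x) ∧ ∀ n, ∀ e ∈ J (n + 1), d e ∈ J n := by
  have c : ∀ n, ∀ x ∈ m ^ (n + 1), δ x ∈ J n := fun n => by
    induction n with
    | zero => simp [h.top]
    | succ n ih =>
      intro x hx
      rw [pow_succ] at hx
      refine Submodule.mul_induction_on hx (fun a ha b hb => ?_) fun a b ha hb => ?_
      · rw [hδ]
        refine add_mem (Ideal.mul_mem_right _ _ ((h.pow _ _).2 ha)) ?_
        rw [mul_comm]
        exact h.mul _ _ _ _ (ih a ha) ((h.pow 1 _).2 (by rwa [pow_one]))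
      · rw [map_add]
        exact add_mem ha hb
  choose x hx using h.den
  choose d hd using fun e => h.cpl (fun n => δ (x e (n + 1))) fun n => by
    rw [← map_sub]
    exact c n _ (h.near (h.anti (n + 1).le_succ (hx e _)) (hx e _))
  have k : ∀ e n y, e - ι y ∈ J (n + 1) → d e - δ y ∈ J n := fun e n y hy => by
    simpa using add_mem (hd e n) (c n _ (h.near (hx e _) hy))
  refine ⟨d, ⟨fun a b => sub_eq_zero.1 (h.sep _ fun n => ?_),
    fun a b => sub_eq_zero.1 (h.sep _ fun n => ?_)⟩,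
    fun y => sub_eq_zero.1 (h.sep _ fun n => k _ n y (by simp)),
    fun n e he => by simpa using k e n 0 (by simpa using he)⟩
  · have := k (a + b) n (x a (n + 1) + x b (n + 1)) (by
      rw [map_add, add_sub_add_comm]
      exact add_mem (hx a _) (hx b _))
    rw [show d (a + b) - (d a + d b) = d (a + b) - δ (x a (n + 1) + x b (n + 1)) -
      (d a - δ (x a (n + 1))) - (d b - δ (x b (n + 1))) by rw [map_add]; ring]
    exact sub_mem (sub_mem this (hd a n)) (hd b n)
  · have := k (a * b) n (x a (n + 1) * x b (n + 1)) (by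
      rw [show a * b - ι (x a (n + 1) * x b (n + 1)) = b * (a - ι (x a (n + 1))) +
        ι (x a (n + 1)) * (b - ι (x b (n + 1))) by rw [map_mul]; ring]
      exact add_mem (Ideal.mul_mem_left _ _ (hx a _)) (Ideal.mul_mem_left _ _ (hx b _)))
    rw [show d (a * b) - (a * d b + b * d a) = d (a * b) - δ (x a (n + 1) * x b (n + 1)) -
      (a * (d b - δ (x b (n + 1))) + δ (x b (n + 1)) * (a - ι (x a (n + 1)))) -
      (b * (d a - δ (x a (n + 1))) + δ (x a (n + 1)) * (b - ι (x b (n + 1)))) by rw [hδ]; ring]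
    exact sub_mem (sub_mem this (add_mem (Ideal.mul_mem_left _ _ (hd b n))
      (Ideal.mul_mem_left _ _ (h.anti n.le_succ (hx a _))))) (add_mem
        (Ideal.mul_mem_left _ _ (hd a n)) (Ideal.mul_mem_left _ _ (h.anti n.le_succ (hx b _))))

/-- symbolic powers are powers -/
theorem sym {L K : Type} [CommRing L] [Field K] {c : ℕ} {φ : L →+* K} {f : Fin c → L} (h : Bs φ f)
    {w a : L} (hw : φ w ≠ 0) (n : ℕ) (ha : w * a ∈ Id f ^ n) : a ∈ Id f ^ n := by
  induction n with
  | zero => simp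
  | succ n ih =>
    obtain ⟨Φ, p, rfl⟩ := (Ideal.mem_span_pow_iff_exists_isHomogeneous f a).1
      (ih (Ideal.pow_le_pow_right n.le_succ ha))
    have z := h.qr n (C w * Φ) (by simpa using (isHomogeneous_C _ w).mul p) (by simpa using ha)
    rw [map_mul, map_C, mul_eq_zero, or_iff_right (by simpa using hw)] at z
    rw [Φ.as_sum, map_sum]
    refine sum_mem fun v hv => ?_
    rw [← mul_one (coeff v Φ), ← C_mul_monomial, map_mul, eval_C, pow_succ']
    refine Ideal.mul_mem_mul ((h.ker _).1 ?_) ((Ideal.mem_span_pow_iff_exists_isHomogeneous f _).2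
      ⟨_, isHomogeneous_monomial 1 ?_, rfl⟩)
    · rw [← coeff_map, z, coeff_zero]
    · by_contra e
      exact mem_support_iff.1 hv (p.coeff_eq_zero e)

end Cpl

open Cpl TrivSqZeroExt in
/-- **CPL** -/
theorem cpl : CPL := by
  intro L K _ _ c φ f h
  have e : Id f = RingHom.ker φ := Ideal.ext fun a => (h.ker a).symm
  have : (Id f).IsPrime := e ▸ RingHom.ker_isPrime φ
  have cm : ∀ w, w ∈ (Id f).primeCompl ↔ φ w ≠ 0 := fun w => (h.ker w).not.symm
  let O := Localization.AtPrime (Id f)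
  obtain ⟨E, _, ι, J, k⟩ := exists_cp (IsLocalRing.maximalIdeal O)
  let ψ : O →+* K := IsLocalization.lift (M := (Id f).primeCompl) (g := φ)
    fun w => IsUnit.mk0 _ ((cm w).1 w.2)
  have hψ : ∀ a, ψ (algebraMap L O a) = φ a := IsLocalization.lift_eq _
  obtain ⟨ρ, r1, r2⟩ := k.res ψ fun x => by
    obtain ⟨⟨a, w⟩, rfl⟩ := IsLocalization.mk'_surjective (Id f).primeCompl x
    rw [IsLocalization.AtPrime.mk'_mem_maximal_iff O (Id f), ← h.ker, ← hψ a,
      ← IsLocalization.mk'_spec O a w, map_mul, hψ, mul_eq_zero, or_iff_left ((cm w).1 w.2)]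
  refine ⟨E, inferInstance, ⟨⟨ι.comp (algebraMap L O), ρ, J, fun a => (r1 _).trans (hψ a), k.top,
    k.anti, k.mul, r2, fun n a => ?_, fun e n => ?_, fun e he => k.unit (fun x hx => ?_)
      (mt (r2 e).2 he), k.sep, k.cpl, fun D hD => ?_⟩⟩⟩
  · rw [RingHom.comp_apply, k.pow, ← Localization.AtPrime.map_eq_maximalIdeal, ← Ideal.map_pow,
      IsLocalization.algebraMap_mem_map_algebraMap_iff (Id f).primeCompl]
    exact ⟨fun ⟨w, hw, ha⟩ => sym h ((cm w).1 hw) n ha, fun ha => ⟨1, one_mem _, by simpa⟩⟩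
  · obtain ⟨x, hx⟩ := k.den e n
    obtain ⟨⟨a, w⟩, rfl⟩ := IsLocalization.mk'_surjective (Id f).primeCompl x
    refine ⟨a, w, (cm w).1 w.2, ?_⟩
    rw [RingHom.comp_apply, RingHom.comp_apply, ← IsLocalization.mk'_spec' O a w, map_mul,
      ← mul_sub]
    exact Ideal.mul_mem_left _ _ hx
  · exact IsLocalRing.notMem_maximalIdeal.1 hx
  · have d0 : D 0 = 0 := by simpa using hD.add 0 0
    have d1 : D 1 = 0 := by simpa using hD.mul 1 1
    let j := ι.comp (algebraMap L O)
    let g : L →+* TrivSqZeroExt E E :=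
      { toFun := fun a => inl (j a) + inr (j (D a))
        map_one' := by simp [d1]
        map_zero' := by simp [d0]
        map_mul' := fun a b => by ext <;> simp [hD.mul, mul_comm]
        map_add' := fun a b => by ext <;> simp [hD.add] }
    let G : O →+* TrivSqZeroExt E E := IsLocalization.lift (M := (Id f).primeCompl) (g := g)
      fun w => isUnit_iff_isUnit_fst.2 (by
        simpa [g, j] using (IsLocalization.map_units O w).map ι)
    have hG : ∀ a, G (algebraMap L O a) = g a := IsLocalization.lift_eq _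
    have fs : ∀ x, (G x).fst = ι x := fun x => DFunLike.congr_fun (IsLocalization.ringHom_ext
      (Id f).primeCompl (j := (fstHom ℤ E E).toRingHom.comp G) (k := ι)
        (RingHom.ext fun a => by simp [hG, g, j])) x
    obtain ⟨d, h1, h2, h3⟩ := k.der ((sndHom E E).toAddMonoidHom.comp G.toAddMonoidHom)
      fun x y => by
        change (G (x * y)).snd = ι x * (G y).snd + ι y * (G x).snd
        rw [map_mul, snd_mul, fs, fs, smul_eq_mul, op_smul_eq_mul, mul_comm (G x).snd]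
    exact ⟨d, h1, fun a => (h2 _).trans (show (G _).snd = _ by rw [hG]; simp [g, j]), h3⟩

end Vale.Agent.P283R.Pu
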