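import Vale.Agent.P283R.Pu.St

/-!
# P283R, block PU: roots in the completion
-/

noncomputable section

namespace Vale.Agent.P283R.Pu

namespace Gam

variable {L K E : Type} [CommRing L] [Field K] [CommRing E] {c : ℕ} {φ : L →+* K} {f : Fin c → L}
  (F : Fl φ f E)

theorem pow_mem {j : E} (h : j ∈ F.J 1) (n : ℕ) : j ^ n ∈ F.J n := by
  induction n with
  | zero => rw [F.top]; trivial
  | succ n ih => rw [pow_succ]; exact F.mul _ _ _ _ ih h

/-- inverses in a closed subring -/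
theorem inv {T : Subring E} (cls : ∀ e, (∀ n, ∃ t ∈ T, e - t ∈ F.J n) → e ∈ T) {x y : E}
    (hx : x ∈ T) (hy : y ∈ T) (h : F.ρ x * F.ρ y = 1) : ∃ z ∈ T, x * z = 1 := by
  obtain ⟨v, hv⟩ := (F.unit (x * y) (by rw [map_mul, h]; exact one_ne_zero)).exists_right_inv
  have j : 1 - x * y ∈ F.J 1 := (F.ker _).1 (by rw [map_sub, map_mul, h, map_one, sub_self])
  refine ⟨y * v, mul_mem hy (cls v fun n => ⟨∑ i ∈ Finset.range n, (1 - x * y) ^ i,
    sum_mem fun i _ => T.pow_mem (sub_mem (one_mem T) (mul_mem hx hy)) i, ?_⟩), by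
      rw [← mul_assoc, hv]⟩
  have e := mul_neg_geom_sum (1 - x * y) n
  have : v - ∑ i ∈ Finset.range n, (1 - x * y) ^ i = v * (1 - x * y) ^ n := by
    linear_combination (∑ i ∈ Finset.range n, (1 - x * y) ^ i) * hv - v * e
  rw [this]
  exact (F.J n).mul_mem_left _ (pow_mem F j n)

theorem res_sum {x y : E} {u : K} (hx : F.ρ x = u) (hy : F.ρ y = u) (r : ℕ) :
    F.ρ (∑ i ∈ Finset.range r, x ^ i * y ^ (r - 1 - i)) = r * u ^ (r - 1) := by
  rw [map_sum, ← geom_sum₂_self]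
  simp only [map_mul, map_pow, hx, hy]

/-- uniqueness of the roots -/
theorem uniq {r : ℕ} (hr : (r : K) ≠ 0) {x y : E} (h : F.ρ x = F.ρ y) (h0 : F.ρ y ≠ 0)
    (e : x ^ r = y ^ r) : x = y := by
  have u := F.unit _ ((res_sum F h rfl r).trans_ne (mul_ne_zero hr (pow_ne_zero _ h0)))
  have k := geom_sum₂_mul x y r
  rw [e, sub_self] at k
  exact sub_eq_zero.1 (u.mul_right_eq_zero.1 k)

/-- existence of the roots -/
theorem root {T : Subring E} (cls : ∀ e, (∀ n, ∃ t ∈ T, e - t ∈ F.J n) → e ∈ T) {r : ℕ} {s h : E}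
    (hs : s ∈ T) (sr : s * r = 1) (hh : h ∈ T) (h1 : F.ρ h = 1) :
    ∃ x ∈ T, F.ρ x = 1 ∧ x ^ r = h := by
  let x : ℕ → E := fun n => (fun y => y - s * (y ^ r - h))^[n] 1
  have xs : ∀ n, x (n + 1) = x n - s * (x n ^ r - h) := fun n => Function.iterate_succ_apply' _ _ _
  have k : ∀ n, x n ∈ T ∧ F.ρ (x n) = 1 ∧ x n ^ r - h ∈ F.J (n + 1) := by
    intro n
    induction n with
    | zero => exact ⟨one_mem T, map_one _, (F.ker _).1 (by simp [x, h1])⟩
    | succ n ih =>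
      obtain ⟨a, b, d⟩ := ih
      have b' : F.ρ (x (n + 1)) = 1 := by simp [xs, b, h1]
      refine ⟨xs n ▸ sub_mem a (mul_mem hs (sub_mem (T.pow_mem a r) hh)), b', ?_⟩
      have g := geom_sum₂_mul (x (n + 1)) (x n) r
      have m : (∑ i ∈ Finset.range r, x (n + 1) ^ i * x n ^ (r - 1 - i)) - r ∈ F.J 1 :=
        (F.ker _).1 (by rw [map_sub, res_sum F b' b]; simp)
      have := F.mul _ _ _ _ ((F.J _).mul_mem_left (-s) d) m
      convert this using 1
      generalize (∑ i ∈ Finset.range r, x (n + 1) ^ i * x n ^ (r - 1 - i)) = S at g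
      have e := xs n
      linear_combination -g + S * e - (x n ^ r - h) * sr
  obtain ⟨e, he⟩ := F.cpl x fun n => by
    rw [xs, sub_sub_cancel_left]
    exact neg_mem ((F.J n).mul_mem_left _ (F.anti n.le_succ (k n).2.2))
  refine ⟨e, cls e fun n => ⟨_, (k n).1, he n⟩, ?_, sub_eq_zero.1 (F.sep _ fun n => ?_)⟩
  · have := (F.ker _).2 (he 1)
    rwa [map_sub, (k 1).2.1, sub_eq_zero] at this
  · have := add_mem ((F.J n).mem_of_dvd (sub_dvd_pow_sub_pow e (x n) r) (he n))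
      (F.anti n.le_succ (k n).2.2)
    rwa [sub_add_sub_cancel] at this

end Gam

open Gam in
/-- **GAM** -/
theorem gam : GAM := fun L K _ _ _ φ f B E _ F I κ w u a r D => by
  obtain ⟨s, hs⟩ := (B.chr r D.pos).exists_left_inv
  have sr : F.ι s * r = 1 := by simpa using congrArg F.ι hs
  have r0 : (r : K) ≠ 0 := by simpa using ((B.chr r D.pos).map φ).ne_zero
  obtain ⟨α, hα⟩ := I.sur a
  have k : ∀ k, ∃ γ, ∃ ε ∈ F.T (w k), ∃ ε' ∈ F.T (w k), F.ρ γ = u k ∧ ε * ε' = 1 ∧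
      γ ^ r = α * ε := fun k => by
    obtain ⟨ε, e1, e2⟩ := (I.rT _ (D.w0 k) _).1 (D.e1 k)
    obtain ⟨δ, d1, d2⟩ := (I.rT _ (D.w0 k) _).1 (D.e2 k)
    have := D.a0
    have := pow_ne_zero r (D.u0 k)
    obtain ⟨ε', e3, e4⟩ := inv F (I.cls _) e1 d1 (by rw [e2, d2]; field_simp)
    obtain ⟨g, hg⟩ := I.sur (u k)
    obtain ⟨g', hg'⟩ := (F.unit g (hg ▸ D.u0 k)).exists_right_inv
    have rg : u k * F.ρ g' = 1 := by rw [← hg, ← map_mul, hg', map_one]
    obtain ⟨x, -, x1, x2⟩ := root F (T := ⊤) (fun _ _ => trivial) (h := α * ε * g' ^ r) trivial sr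
      trivial (by
        rw [map_mul, map_mul, map_pow, hα, e2, mul_div_cancel₀ _ D.a0, ← mul_pow, rg, one_pow])
    refine ⟨x * g, ε, e1, ε', e3, by rw [map_mul, x1, hg, one_mul], e4, ?_⟩
    rw [mul_pow, x2, mul_assoc, ← mul_pow, mul_comm g', hg', one_pow, mul_one]
  choose γ ε e1 ε' e2 h1 h2 h3 using k
  have re : ∀ k, a * F.ρ (ε k) = u k ^ r := fun k => by
    rw [← hα, ← map_mul, ← h3, map_pow, h1]
  refine ⟨γ, α, h1, hα, fun k => ⟨_, e1 k, _, e2 k, h2 k, h3 k⟩, fun k l => ?_⟩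
  have w0 : φ (w k * w l) ≠ 0 := by rw [map_mul]; exact mul_ne_zero (D.w0 k) (D.w0 l)
  obtain ⟨g, g1, g2⟩ := (I.rT _ w0 _).1 (D.tr k l)
  obtain ⟨δ, d1, d2⟩ := (I.rT _ w0 _).1 (mul_comm (w l) (w k) ▸ D.tr l k)
  have uk := D.u0 k
  have ul := D.u0 l
  obtain ⟨g', g3, g4⟩ := inv F (I.cls _) g1 d1 (by rw [g2, d2]; field_simp)
  have rg : u k / u l * F.ρ g' = 1 := by rw [← g2, ← map_mul, g4, map_one]
  have rl : F.ρ (ε l) * F.ρ (ε' l) = 1 := by rw [← map_mul, h2, map_one]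
  obtain ⟨x, x0, x1, x2⟩ := root F (I.cls (w k * w l)) (h := ε k * ε' l * g' ^ r) (I.iT _ s) sr
    (mul_mem (mul_mem (I.left _ _ (e1 k)) (I.right _ _ (e2 l))) (Subring.pow_mem _ g3 r)) (by
      have a1 := congrArg (· ^ r) rg
      simp only [mul_pow, div_pow, one_pow, ← re] at a1
      have e0 : F.ρ (ε l) ≠ 0 := left_ne_zero_of_mul_eq_one rl
      rw [mul_div_mul_left _ _ D.a0, div_eq_mul_inv, ← eq_inv_of_mul_eq_one_right rl] at a1
      rw [map_mul, map_mul, map_pow, a1])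
  refine ⟨x * g, mul_mem x0 g1, (uniq F r0 ?_ (h1 k ▸ uk) ?_).symm⟩
  · rw [map_mul, map_mul, x1, g2, h1, h1, one_mul, div_mul_cancel₀ _ ul]
  · have a1 := congrArg (· ^ r) g4
    simp only [mul_pow, one_pow] at a1
    rw [mul_pow, mul_pow, x2, h3, h3]
    linear_combination (ε k * ε' l * α * ε l) * a1 + α * ε k * h2 l

end Vale.Agent.P283R.Pu
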