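import Vale.Agent.P283R.Pu.Su
import Vale.Agent.P283R.Et.Glue

/-!
# P283R, block PU: from the tier to the scheme statement
-/

set_option linter.all false

open Set CategoryTheory AlgebraicGeometry
open Vale.Agent.P289 Vale.Agent.P289.H219 Vale.Agent.P270L Vale.Agent.P283M.Am Vale.Agent.P299.G

noncomputable section

namespace Vale.Agent.P283R.Pu

open Vale.Agent.P287D Vale.Agent.P283M Vale.Agent.P283M.Br Vale.Agent.P283M.Stm.Var
open Vale.Agent.P297Z Vale.Agent.P283R.Br Vale.Agent.P283R.Et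

theorem R2.equiv {A B : Type} [CommRing A] [CommRing B] (e : A ≃+* B) (h : R2 A) : R2 B :=
  fun p _ hp => by
    have := h (p.comap e) (by rwa [RingEquiv.height_comap])
    exact IsRegularLocalRing.of_ringEquiv (IsLocalization.ringEquivOfRingEquiv
      (M := (p.comap e).primeCompl) (T := p.primeCompl) (Localization.AtPrime (p.comap e))
      (Localization.AtPrime p) e (Submonoid.ext fun b => ⟨fun ⟨a, ha, k⟩ => k ▸ ha,
        fun hb => ⟨e.symm b, fun k => hb (e.apply_symm_apply b ▸ k), e.apply_symm_apply b⟩⟩))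

theorem R2.qm {S : Type} [CommRing S] [Algebra ℂ S] {I : Ideal S} [I.IsPrime] (h : R2 (S ⧸ I)) :
    R2 (qm I).range := by
  let j : (S ⧸ I) →ₐ[ℂ] FractionRing (S ⧸ I) := IsScalarTower.toAlgHom ℂ _ _
  have rg : (Br.qm I).range = j.range := le_antisymm (by rintro _ ⟨s, rfl⟩; exact ⟨_, rfl⟩) (by
    rintro _ ⟨s, rfl⟩
    obtain ⟨s, rfl⟩ := Ideal.Quotient.mk_surjective s
    exact ⟨s, rfl⟩)
  rw [rg]
  exact h.equiv (AlgEquiv.ofInjective j (IsFractionRing.injective (S ⧸ I) _)).toRingEquiv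

/-- **GLR** -/
theorem glr : GLR := by
  intro q d hd ε hε R hR
  obtain ⟨N, N1, hN⟩ := q d (∏ a ∈ R, a.den) hd
    (Finset.prod_pos (s := R) fun a _ => Rat.den_pos a) ε hε
  refine ⟨2 * N, by omega, fun X Z f ω B z hdim hω hB hR' hf ⟨p, hp⟩ ⟨m, g, m0, hg⟩ hz
    ⟨W, e, w, ⟨_, he, hw, wc⟩, c, U, S, _, _, I, G, i, hU, wU, l, r2⟩ => ?_⟩
  subst hw
  obtain ⟨A, χ, bs⟩ := exists_bs ctr_id pb_id hU wU wc
  have := l.prime
  let _ := alg (RingEquiv.refl W.K) i
  have := alg_tower (p := RingEquiv.refl W.K) i fun _ => rfl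
  obtain ⟨F, hq⟩ := quo' hU wU l bs
  refine coreE hd hε hdim hω hB hf hp m0 hg hz he hU wU bs N1 fun hK g g0 h1 h2 =>
    hN W.K _ S c (qm I) F G A χ m g r2.qm hK hq m0 g0 h1 fun P hP k => ?_
  obtain ⟨E, -, -, -, -, -, -, e⟩ := h2 P hP k
  rw [e]
  by_cases z : B E = 0
  · exact ⟨0, by rw [z]; simp⟩
  obtain ⟨j, hj⟩ := den R (hR' _ z) (hB.1 _ trivial)
  exact ⟨j, by rw [mul_neg, neg_inj]; exact_mod_cast hj⟩

end Vale.Agent.P283R.Pu
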