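import Vale.Agent.P283R.Pu.St
import Mathlib.RingTheory.Polynomial.Basic

/-!
# P283R, block PU: Hilbert's basis theorem in graded form
-/

open Set MvPolynomial

noncomputable section

namespace Vale.Agent.P283R.Pu

namespace Gr

variable {L K : Type} [CommRing L] [Field K] {c M : ℕ} {κ : Type}

theorem hc_X_mul (i : Fin c) (n : ℕ) (p : MvPolynomial (Fin c) L) :
    homogeneousComponent (n + 1) (X i * p) = X i * homogeneousComponent n p := by
  classical
  ext m
  rw [coeff_homogeneousComponent, coeff_X_mul', coeff_X_mul', coeff_homogeneousComponent]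
  by_cases h : i ∈ m.support
  · have e : m.degree = (m - Finsupp.single i 1).degree + 1 := by
      have h1 : Finsupp.single i 1 ≤ m := by
        rw [Finsupp.single_le_iff]; exact Nat.one_le_iff_ne_zero.2 (Finsupp.mem_support_iff.1 h)
      conv_lhs => rw [← tsub_add_cancel_of_le h1]
      rw [map_add, Finsupp.degree_single]
    simp only [h, if_true, e, Nat.add_right_cancel_iff]
  · simp [h]

theorem hc_X_zero (i : Fin c) (p : MvPolynomial (Fin c) L) :
    homogeneousComponent 0 (X i * p) = 0 := by
  rw [homogeneousComponent_zero]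
  have : coeff 0 (X i * p) = 0 := by
    rw [← constantCoeff_eq, map_mul, constantCoeff_X, zero_mul]
  rw [this, map_zero]

/-- the combination of the vectors `z i` -/
def ps (φ : L →+* K) (z : Fin M → κ → K) (a : Fin M → MvPolynomial (Fin c) L) (k : κ) :
    MvPolynomial (Fin c) K := ∑ i, map φ (a i) * C (z i k)

theorem ps_add (φ : L →+* K) (z : Fin M → κ → K) (a b : Fin M → MvPolynomial (Fin c) L) :
    ps φ z (fun i => a i + b i) = ps φ z a + ps φ z b := by
  funext k
  simp only [ps, Pi.add_apply, map_add, add_mul, Finset.sum_add_distrib]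

theorem ps_mul (φ : L →+* K) (z : Fin M → κ → K) (p : MvPolynomial (Fin c) L)
    (a : Fin M → MvPolynomial (Fin c) L) :
    ps φ z (fun i => p * a i) = fun k => map φ p * ps φ z a k := by
  funext k
  simp only [ps, map_mul, Finset.mul_sum, mul_assoc]

theorem ps_zero (φ : L →+* K) (z : Fin M → κ → K) :
    ps φ z (fun _ => (0 : MvPolynomial (Fin c) L)) = 0 := by
  funext k
  simp [ps]

theorem ps_hom (φ : L →+* K) (z : Fin M → κ → K) {a : Fin M → MvPolynomial (Fin c) L} {n : ℕ}
    (h : ∀ i, (a i).IsHomogeneous n) (k : κ) : (ps φ z a k).IsHomogeneous n :=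
  IsHomogeneous.sum _ _ _ fun i _ => by
    simpa using ((h i).map φ).mul (isHomogeneous_C _ (z i k))

theorem coeff_ps (φ : L →+* K) (z : Fin M → κ → K) (a : Fin M → MvPolynomial (Fin c) L) (k : κ)
    (m : Fin c →₀ ℕ) : coeff m (ps φ z a k) = ∑ i, φ (coeff m (a i)) * z i k := by
  simp only [ps, coeff_sum]
  refine Finset.sum_congr rfl fun i _ => ?_
  rw [mul_comm, coeff_C_mul, coeff_map, mul_comm]

theorem lift [Fintype κ] (φ : L →+* K) (z : Fin M → κ → K) {Z B₀ : (κ → K) → Prop} (h0 : B₀ 0)
    (hz : ∀ b, Z b → ∃ a : Fin M → L, B₀ fun k => b k - ∑ i, φ (a i) * z i k) {n : ℕ}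
    {b : κ → MvPolynomial (Fin c) K} (hb : ∀ k, (b k).IsHomogeneous n)
    (hZ : ∀ m, Z fun k => coeff m (b k)) :
    ∃ a : Fin M → MvPolynomial (Fin c) L, (∀ i, (a i).IsHomogeneous n) ∧
      ∀ m, B₀ fun k => coeff m (b k - ps φ z a k) := by
  classical
  choose a ha using fun m => hz _ (hZ m)
  let s : Finset (Fin c →₀ ℕ) := Finset.univ.biUnion fun k => (b k).support
  have hc : ∀ i m, coeff m (∑ m' ∈ s, monomial m' (a m' i)) = if m ∈ s then a m i else 0 := by
    intro i m
    simp only [coeff_sum, coeff_monomial]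
    rw [Finset.sum_ite_eq']
  refine ⟨fun i => ∑ m ∈ s, monomial m (a m i), fun i => IsHomogeneous.sum _ _ _ fun m hm => ?_,
    fun m => ?_⟩
  · obtain ⟨k, -, hk⟩ := Finset.mem_biUnion.1 hm
    refine isHomogeneous_monomial _ ?_
    by_contra hne
    exact mem_support_iff.1 hk ((hb k).coeff_eq_zero hne)
  · simp only [coeff_sub, coeff_ps, hc]
    by_cases hm : m ∈ s
    · simpa only [hm, if_true] using ha m
    · have : (fun k => coeff m (b k) - ∑ i, φ (if m ∈ s then a m i else 0) * z i k) = 0 := by
        funext k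
        have : coeff m (b k) = 0 := by
          by_contra hne
          exact hm (Finset.mem_biUnion.2 ⟨k, Finset.mem_univ _, mem_support_iff.2 hne⟩)
        simp [hm, this]
      rw [this]
      exact h0

end Gr

open Gr

theorem gr : GR := by
  intro L K _ _ _ φ c κ _ Z B₀ B h0 hadd hsm ⟨M, z, _, hz⟩ hB
  let A : ℕ → Set (Fin M → MvPolynomial (Fin c) L) := fun j => {a | ∃ n ≤ j, ∃ b ∈ B n,
    (∀ i, (a i).IsHomogeneous n) ∧ ∀ m, B₀ fun k => coeff m (b k - ps φ z a k)}
  let N : ℕ →o Submodule (MvPolynomial (Fin c) L) (Fin M → MvPolynomial (Fin c) L) :=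
    ⟨fun j => Submodule.span _ (A j), fun j j' h => Submodule.span_mono
      fun a ⟨n, hn, hb⟩ => ⟨n, hn.trans h, hb⟩⟩
  obtain ⟨n₀, hn₀⟩ := monotone_stabilizes_iff_noetherian.2 inferInstance N
  refine ⟨n₀, fun G g0 gadd gC gX gB gB₀ n b hb => ?_⟩
  let P : (Fin M → MvPolynomial (Fin c) L) → Prop := fun a =>
    ∀ n, ps φ z (fun i => homogeneousComponent n (a i)) ∈ G n
  have p0 : P 0 := fun n => by
    simp only [Pi.zero_apply, map_zero, ps_zero]
    exact g0 n
  have padd : ∀ a a', P a → P a' → P (a + a') := fun a a' h h' n => by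
    simp only [Pi.add_apply, map_add, ps_add]
    exact gadd n _ (h n) _ (h' n)
  have psm : ∀ (p : MvPolynomial (Fin c) L) a, P a → P (p • a) := fun p => by
    induction p using MvPolynomial.induction_on with
    | C r =>
      intro a h n
      simp only [Pi.smul_apply, smul_eq_mul, homogeneousComponent_C_mul, ps_mul, map_C]
      exact gC n r _ (h n)
    | add p q hp hq =>
      intro a h
      rw [add_smul]
      exact padd _ _ (hp a h) (hq a h)
    | mul_X p i hp =>
      intro a h
      rw [mul_smul]
      refine hp _ fun n => ?_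
      rcases n with _ | n
      · simp only [Pi.smul_apply, smul_eq_mul, hc_X_zero, ps_zero]
        exact g0 0
      · simp only [Pi.smul_apply, smul_eq_mul, hc_X_mul, ps_mul, map_X]
        exact gX n i _ (h n)
  have pg : ∀ a ∈ A n₀, P a := by
    rintro a ⟨j, hj, b', hb', ha, hc⟩ n
    by_cases e : n = j
    · subst e
      have e1 : (fun i => homogeneousComponent n (a i)) = a := by
        funext i
        rw [homogeneousComponent_of_mem (ha i), if_pos rfl]
      have e2 : ps φ z a = b' + fun k => ps φ z a k - b' k := by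
        funext k
        simp
      rw [e1, e2]
      refine gadd n _ (gB n hj hb') _ (gB₀ n _ (fun k => (ps_hom φ z ha k).sub ((hB n b' hb').1 k))
        fun m => ?_)
      simpa using hsm (-1) _ (hc m)
    · have e1 : (fun i => homogeneousComponent n (a i)) = fun _ => 0 := by
        funext i
        rw [homogeneousComponent_of_mem (ha i), if_neg e]
      rw [e1, ps_zero]
      exact g0 n
  obtain ⟨a, ha, hc⟩ := lift φ z h0 hz (hB n b hb).1 (hB n b hb).2
  have hm : a ∈ N n₀ := by
    rw [hn₀ (max n₀ n) (le_max_left _ _)]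
    exact Submodule.subset_span ⟨n, le_max_right _ _, b, hb, ha, hc⟩
  have hP : P a := Submodule.span_induction (p := fun a _ => P a) pg p0
    (fun a a' _ _ => padd a a') (fun p a _ => psm p a) hm
  have e1 : (fun i => homogeneousComponent n (a i)) = a := by
    funext i
    rw [homogeneousComponent_of_mem (ha i), if_pos rfl]
  have e2 : b = ps φ z a + fun k => b k - ps φ z a k := by
    funext k
    simp
  have h1 := hP n
  rw [e1] at h1
  rw [e2]
  exact gadd n _ h1 _ (gB₀ n _ (fun k => ((hB n b hb).1 k).sub (ps_hom φ z ha k)) hc)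

end Vale.Agent.P283R.Pu
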