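import Vale.Agent.P283R.Pu.St

/-!
# P283R, block PU: Hartogs on the completion
-/

open Set MvPolynomial

noncomputable section

namespace Vale.Agent.P283R.Pu

/-- **HART** -/
theorem hart : HART := by
  intro L K _ _ c φ f _ E _ F h κ w w0 ht e he
  have one : ∀ v, F.T 1 ≤ F.T v := fun v => by simpa using h.left 1 v
  have sub : ∀ Φ Ψ : MvPolynomial (Fin c) E, F.ev (Φ - Ψ) = F.ev Φ - F.ev Ψ := fun Φ Ψ =>
    map_sub (eval fun i => F.ι (f i)) Φ Ψ
  refine h.cls 1 e fun n => ?_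
  induction n with
  | zero => exact ⟨0, zero_mem _, by rw [F.top]; trivial⟩
  | succ n ih =>
    obtain ⟨t, t1, t2⟩ := ih
    obtain ⟨Φ, p1, p2⟩ := h.ini n _ t2
    have cf : ∀ m, ∃ b ∈ F.T 1, F.ρ b = F.ρ (coeff m Φ) := fun m => by
      refine (h.rT 1 (by simp) _).1 (ht _ fun k => ?_)
      obtain ⟨Ψ, q1, q2, q3⟩ := h.str (w k) (w0 k) n _ t2 (sub_mem (he k) (one _ t1))
      have z := (h.qr n _ (p1.sub q1)).1 (by
        have := sub_mem q3 p2
        rwa [sub_sub_sub_cancel_left, ← sub] at this)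
      have z' := congrArg (coeff m) z
      rw [coeff_map, coeff_sub, map_sub, coeff_zero, sub_eq_zero] at z'
      exact (h.rT _ (w0 k) _).2 ⟨_, q2 m, z'.symm⟩
    choose b b1 b2 using cf
    let Ψ : MvPolynomial (Fin c) E := ∑ m ∈ Φ.support, monomial m (b m)
    have cΨ : ∀ m, coeff m Ψ = if m ∈ Φ.support then b m else 0 := fun m => by
      simp only [Ψ, coeff_sum, coeff_monomial, Finset.sum_ite_eq']
    have hΨ : Ψ.IsHomogeneous n := fun m hm => p1 (by
      rw [cΨ] at hm
      exact mem_support_iff.1 (by by_contra k; exact hm (if_neg k)))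
    have mT : F.ev Ψ ∈ F.T 1 := h.evT 1 Ψ fun m => by
      rw [cΨ]
      split_ifs
      exacts [b1 m, zero_mem _]
    have z : F.ev (Φ - Ψ) ∈ F.J (n + 1) := (h.qr n _ (p1.sub hΨ)).2 (by
      ext m
      rw [coeff_map, coeff_sub, map_sub, coeff_zero, cΨ]
      split_ifs with k
      · rw [b2, sub_self]
      · rw [notMem_support_iff.1 k, sub_self])
    refine ⟨t + F.ev Ψ, add_mem t1 mT, ?_⟩
    have := add_mem p2 z
    rwa [sub, sub_add_sub_cancel, sub_sub] at this

end Vale.Agent.P283R.Pu
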