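import Vale.Agent.P283R.Pu.St

/-!
# P283R, block PU: the cohomology of the punctured spectrum (row HF)
-/

set_option linter.unusedSectionVars false

open Set

noncomputable section

namespace Vale.Agent.P283R.Pu

namespace Hfl

variable {L K : Type} [CommRing L] [Field K] {c : ℕ} {κ : Type} {φ : L →+* K} {f : Fin c → L}
  {w : κ → L} {u : κ → K}

theorem im (v a : L) : φ a ∈ Rw φ v := ⟨a, 0, by simp⟩

theorem one {x : K} (h : x ∈ Rw φ 1) : ∃ a, x = φ a :=
  let ⟨a, _, h⟩ := h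
  ⟨a, by simpa using h⟩

theorem cancel {v : L} {x : K} {j : ℕ} (h : φ v ^ j * x ∈ Rw φ v) : x ∈ Rw φ v :=
  let ⟨a, i, h⟩ := h
  ⟨a, i + j, by rw [← h]; ring⟩

theorem left {v v' : L} {x : K} (h : x ∈ Rw φ v) : x ∈ Rw φ (v * v') :=
  let ⟨a, i, h⟩ := h
  ⟨v' ^ i * a, i, by rw [map_mul, map_mul, map_pow, ← h]; ring⟩

/-- a uniform exponent -/
theorem unif [Fintype κ] {v : L} {x : κ → K} (h : ∀ k, x k ∈ Rw φ (w k * v)) :
    ∃ j : ℕ, ∀ k, φ v ^ j * x k ∈ Rw φ (w k) := by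
  choose a j h using h
  refine ⟨∑ k, j k, fun k => ?_⟩
  obtain ⟨i, hi⟩ := Nat.exists_eq_add_of_le
    (Finset.single_le_sum (f := j) (fun _ _ => Nat.zero_le _) (Finset.mem_univ k))
  refine ⟨v ^ i * a k, j k, ?_⟩
  rw [hi, map_mul, map_pow, ← h k, map_mul]; ring

/-- a common denominator -/
theorem den [Fintype κ] (B : Bs φ f) (x : κ → K) : ∃ y, φ y ≠ 0 ∧ ∀ k, ∃ a, φ y * x k = φ a := by
  classical
  choose a b h0 h using fun k => B.fr (x k)
  refine ⟨∏ k, b k, ?_, fun k => ⟨(∏ l ∈ Finset.univ.erase k, b l) * a k, ?_⟩⟩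
  · rw [map_prod]; exact Finset.prod_ne_zero_iff.2 fun k _ => h0 k
  · rw [← Finset.mul_prod_erase _ _ (Finset.mem_univ k), map_mul, map_mul, ← h k]; ring

theorem ht (B : Bs φ f) (h : C3 φ w) : Ht φ w := fun x hx => by
  obtain ⟨n, y, y0, e⟩ := B.fr x
  let C : Ideal L :=
    { carrier := {z | ∃ b, φ z * x = φ b}
      zero_mem' := ⟨0, by simp⟩
      add_mem' := fun ⟨a, h⟩ ⟨b, k⟩ => ⟨a + b, by rw [map_add, map_add, ← h, ← k]; ring⟩
      smul_mem' := fun s _ ⟨a, h⟩ => ⟨s * a, by rw [smul_eq_mul, map_mul, map_mul, ← h]; ring⟩ }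
  obtain ⟨z₁, ⟨b, hb⟩, -, -, k, -⟩ := h C
    (fun k => let ⟨a, j, h⟩ := hx k; ⟨j, a, by rw [map_pow]; exact h⟩) y y0
  obtain ⟨a, ha⟩ := k n b (by rw [← e, ← hb]; ring)
  exact ⟨a, 0, by rw [pow_zero, one_mul]; exact mul_left_cancel₀ y0 (e.trans ha)⟩

/-- the first cohomology of the structure sheaf vanishes -/
theorem h1 [Fintype κ] (B : Bs φ f) (h : C3 φ w) {b : κ → K}
    (hb : ∀ k l, b k - b l ∈ Rw φ (w k * w l)) : ∃ t, ∀ k, b k - t ∈ Rw φ (w k) := by
  obtain ⟨y, y0, hy⟩ := den B b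
  choose m hm using hy
  let C : Ideal L :=
    { carrier := {z | ∃ n, ∀ k, φ z * b k - φ n / φ y ∈ Rw φ (w k)}
      zero_mem' := ⟨0, fun k => by simp⟩
      add_mem' := fun {s t} ⟨p, h⟩ ⟨q, i⟩ => ⟨p + q, fun k => by
        have e : φ (s + t) * b k - φ (p + q) / φ y =
          (φ s * b k - φ p / φ y) + (φ t * b k - φ q / φ y) := by rw [map_add, map_add]; ring
        rw [e]; exact add_mem (h k) (i k)⟩
      smul_mem' := fun s t ⟨p, h⟩ => ⟨s * p, fun k => by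
        have e : φ (s • t) * b k - φ (s * p) / φ y = φ s * (φ t * b k - φ p / φ y) := by
          rw [smul_eq_mul, map_mul, map_mul]; ring
        rw [e]; exact mul_mem (im _ _) (h k)⟩ }
  obtain ⟨z₁, ⟨n₁, h₁⟩, z₂, ⟨n₂, h₂⟩, r₁, r₂⟩ := h C (fun l => by
    obtain ⟨j, hj⟩ := unif fun k => hb k l
    refine ⟨j, w l ^ j * m l, fun k => ?_⟩
    have e : φ (w l ^ j) * b k - φ (w l ^ j * m l) / φ y = φ (w l) ^ j * (b k - b l) := by
      rw [map_mul, map_pow, ← hm l]; field_simp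
    rw [e]; exact hj k) y y0
  obtain ⟨s, hs⟩ := one (ht B h (φ z₂ * φ n₁ / φ y - φ z₁ * φ n₂ / φ y) fun k => by
    have e : φ z₂ * φ n₁ / φ y - φ z₁ * φ n₂ / φ y =
      φ z₁ * (φ z₂ * b k - φ n₂ / φ y) - φ z₂ * (φ z₁ * b k - φ n₁ / φ y) := by ring
    rw [e]; exact sub_mem (mul_mem (im _ _) (h₂ k)) (mul_mem (im _ _) (h₁ k)))
  obtain ⟨a, a', ha⟩ := r₂ n₁ s n₂ (by rw [← hs]; field_simp; ring)
  refine ⟨φ a' / φ y, fun k => ?_⟩
  have e : φ z₁ * (b k - φ a' / φ y) = (φ z₁ * b k - φ n₁ / φ y) + φ a := by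
    rw [ha]; field_simp; ring
  obtain ⟨p, j, hp⟩ : φ z₁ * (b k - φ a' / φ y) ∈ Rw φ (w k) := by
    rw [e]; exact add_mem (h₁ k) (im _ _)
  obtain ⟨q, hq⟩ := r₁ (w k ^ j * (m k - a')) p (by
    rw [← hp, map_mul, map_sub, map_pow, ← hm k]; field_simp)
  refine ⟨q, j, mul_left_cancel₀ y0 ?_⟩
  rw [← hq, map_mul, map_sub, map_pow, ← hm k]; field_simp

theorem tors [Fintype κ] (B : Bs φ f) (h : C3 φ w) (u0 : ∀ k, u k ≠ 0) :
    ∃ x, φ x ≠ 0 ∧ ∀ b, Zc φ w u b → Bd φ w u fun k => φ x * b k := by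
  obtain ⟨p, p0, hp⟩ := den B fun k => (u k)⁻¹
  obtain ⟨q, q0, hq⟩ := den B u
  refine ⟨q * p, by rw [map_mul]; exact mul_ne_zero q0 p0, fun b hb => ?_⟩
  obtain ⟨t, ht⟩ := h1 B h (b := fun k => φ p * b k) fun k l => by
    obtain ⟨a, ha⟩ := hp k
    have e : φ p * b k - φ p * b l = φ a * (u k * (b k - b l)) := by
      rw [← ha]; have := u0 k; field_simp
    rw [e]; exact mul_mem (im _ _) (hb k l)
  refine ⟨φ q * t, fun k => ?_⟩
  obtain ⟨a, ha⟩ := hq k
  have e : u k * (φ (q * p) * b k - φ q * t) = φ a * (φ p * b k - t) := by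
    rw [← ha, map_mul]; ring
  show u k * (φ (q * p) * b k - φ q * t) ∈ _
  rw [e]; exact mul_mem (im _ _) (ht k)

theorem fg [Fintype κ] (B : Bs φ f) (h : C3 φ w) (u0 : ∀ k, u k ≠ 0)
    (tr : ∀ k l, u k / u l ∈ Rw φ (w k * w l)) : Fg φ (Zc φ w u) (Bd φ w u) := by
  obtain ⟨x, x0, hx⟩ := tors B h u0
  choose j hj using fun l => unif (w := w) (v := w l) (x := fun k => u l / u k) fun k => by
    rw [mul_comm]; exact tr l k
  let N : Submodule L (κ → L) :=
    { carrier := {n | ∃ b, Zc φ w u b ∧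
        ∀ k l, φ (w l) ^ j l * u l * b k - φ (n l) / φ x ∈ Rw φ (w k)}
      zero_mem' := ⟨0, fun k l => by simp, fun k l => by simp⟩
      add_mem' := fun {n n'} ⟨b, h, i⟩ ⟨b', h', i'⟩ => ⟨b + b', fun k l => by
        have e : u k * ((b + b') k - (b + b') l) = u k * (b k - b l) + u k * (b' k - b' l) := by
          simp only [Pi.add_apply]; ring
        rw [e]; exact add_mem (h k l) (h' k l), fun k l => by
        have e : φ (w l) ^ j l * u l * (b + b') k - φ ((n + n') l) / φ x =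
            (φ (w l) ^ j l * u l * b k - φ (n l) / φ x) +
              (φ (w l) ^ j l * u l * b' k - φ (n' l) / φ x) := by
          simp only [Pi.add_apply, map_add]; ring
        rw [e]; exact add_mem (i k l) (i' k l)⟩
      smul_mem' := fun s n ⟨b, h, i⟩ => ⟨fun k => φ s * b k, fun k l => by
        have e : u k * (φ s * b k - φ s * b l) = φ s * (u k * (b k - b l)) := by ring
        show u k * (φ s * b k - φ s * b l) ∈ _
        rw [e]; exact mul_mem (im _ _) (h k l), fun k l => by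
        have e : φ (w l) ^ j l * u l * (φ s * b k) - φ ((s • n) l) / φ x =
            φ s * (φ (w l) ^ j l * u l * b k - φ (n l) / φ x) := by
          simp only [Pi.smul_apply, smul_eq_mul, map_mul]; ring
        rw [e]; exact mul_mem (im _ _) (i k l)⟩ }
  have := B.noe
  obtain ⟨m, s, hs⟩ := Submodule.fg_iff_exists_fin_generating_family.1
    (IsNoetherian.noetherian N)
  have hN : ∀ i, s i ∈ N := fun i => hs ▸ Submodule.subset_span ⟨i, rfl⟩
  choose z hz hzs using hN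
  refine ⟨m, z, hz, fun b hb => ?_⟩
  obtain ⟨t, ht'⟩ := hx b hb
  have k1 : ∀ l, ∃ n, ∀ k, φ (w l) ^ j l * u l * (b k - t / φ x) - φ n / φ x ∈ Rw φ (w k) := by
    intro l
    obtain ⟨τ, hτ⟩ := h1 B h (b := fun k => φ (w l) ^ j l * u l * (b k - t / φ x)) fun k k' => by
      have e : φ (w l) ^ j l * u l * (b k - t / φ x) - φ (w l) ^ j l * u l * (b k' - t / φ x) =
          φ (w l) ^ j l * (u l / u k) * (u k * (b k - b k')) := by
        have := u0 k; field_simp; ring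
      rw [e]; exact mul_mem (left (hj l k)) (hb k k')
    obtain ⟨n, hn⟩ := one (ht B h (φ x * τ) fun k => by
      have e : φ x * τ = φ (w l) ^ j l * (u l / u k) * (u k * (φ x * b k - t)) -
          φ x * (φ (w l) ^ j l * u l * (b k - t / φ x) - τ) := by
        have := u0 k; field_simp; ring
      rw [e]; exact sub_mem (mul_mem (hj l k) (ht' k)) (mul_mem (im _ _) (hτ k)))
    refine ⟨n, fun k => ?_⟩
    rw [← hn, mul_div_cancel_left₀ _ x0]; exact hτ k
  choose n hn using k1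
  have hnN : n ∈ N := ⟨fun k => b k - t / φ x, fun k l => by
    have e : u k * (b k - t / φ x - (b l - t / φ x)) = u k * (b k - b l) := by ring
    show u k * (b k - t / φ x - (b l - t / φ x)) ∈ _
    rw [e]; exact hb k l, fun k l => hn l k⟩
  rw [← hs] at hnN
  obtain ⟨a, ha⟩ := (Submodule.mem_span_range_iff_exists_fun L).1 hnN
  refine ⟨a, t / φ x, fun k => cancel (j := j k) ?_⟩
  have e : φ (w k) ^ j k * (u k * (b k - ∑ i, φ (a i) * z i k - t / φ x)) =
      (φ (w k) ^ j k * u k * (b k - t / φ x) - φ (n k) / φ x) -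
        ∑ i, φ (a i) * (φ (w k) ^ j k * u k * z i k - φ (s i k) / φ x) := by
    have e0 : φ (n k) = ∑ i, φ (a i) * φ (s i k) := by
      rw [← ha]; simp only [Finset.sum_apply, Pi.smul_apply, smul_eq_mul, map_sum, map_mul]
    have e1 : ∑ i, φ (a i) * (φ (w k) ^ j k * u k * z i k - φ (s i k) / φ x) =
        φ (w k) ^ j k * u k * ∑ i, φ (a i) * z i k - (φ x)⁻¹ * ∑ i, φ (a i) * φ (s i k) := by
      rw [Finset.mul_sum, Finset.mul_sum, ← Finset.sum_sub_distrib]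
      exact Finset.sum_congr rfl fun i _ => by ring
    rw [e0, e1]; ring
  show φ (w k) ^ j k * (u k * (b k - ∑ i, φ (a i) * z i k - t / φ x)) ∈ _
  rw [e]
  exact sub_mem (hn k k) (sum_mem fun i _ => mul_mem (im _ _) (hzs i k k))

end Hfl

theorem hf : HF := fun _ _ _ _ _ _ _ B _ _ _ _ _ _ D h =>
  ⟨Hfl.ht B h, Hfl.tors B h D.u0, Hfl.fg B h D.u0 D.tr⟩

end Vale.Agent.P283R.Pu
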