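import Vale.Agent.P283R.Pu.Ini

/-!
# P283R, block PU: a section on the completion
-/

set_option linter.all false

open Set MvPolynomial

noncomputable section

namespace Vale.Agent.P283R.Pu

namespace Ml

variable {L K E : Type} [CommRing L] [Field K] [CommRing E] {c : ℕ} {φ : L →+* K} {f : Fin c → L}
  {κ : Type} (F : Fl φ f E) (w : κ → L) (γ : κ → E)

/-- a section modulo `J n` -/
def Sec (n : ℕ) (s : E) : Prop := ∀ k, ∃ t ∈ F.T (w k), γ k * s - t ∈ F.J n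

/-- the obstruction -/
def Ob (n : ℕ) (s : E) (b : κ → MvPolynomial (Fin c) K) : Prop :=
  ∀ k, ∃ t ∈ F.T (w k), ∃ Φ : MvPolynomial (Fin c) E, Φ.IsHomogeneous n ∧
    γ k * s - t - γ k * F.ev Φ ∈ F.J (n + 1) ∧ map F.ρ Φ = b k

variable {F w γ} {u : κ → K} {a : K} {r n : ℕ} {α s s' : E} {b b' : κ → MvPolynomial (Fin c) K}

theorem Ob.add (h : Ob F w γ n s b) (h' : Ob F w γ n s' b') : Ob F w γ n (s + s') (b + b') :=
  fun k => by
    obtain ⟨t, a1, Φ, a2, a3, a4⟩ := h k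
    obtain ⟨t', b1, Ψ, b2, b3, b4⟩ := h' k
    refine ⟨t + t', add_mem a1 b1, Φ + Ψ, a2.add b2, ?_, by rw [map_add, a4, b4]; rfl⟩
    convert add_mem a3 b3 using 1
    rw [F.ev_add]; ring

theorem Ob.smul (h : Ob F w γ n s b) (x : L) :
    Ob F w γ n (F.ι x * s) fun k => C (φ x) * b k := fun k => by
  obtain ⟨t, a1, Φ, a2, a3, a4⟩ := h k
  refine ⟨F.ι x * t, mul_mem (F.iT _ _) a1, C (F.ι x) * Φ, a2.C_mul _, ?_,
    by rw [map_mul, map_C, F.res, a4]⟩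
  convert (F.J _).mul_mem_left (F.ι x) a3 using 1
  rw [F.ev_mul, F.ev_C]; ring

theorem Ob.X (h : Ob F w γ n s b) (i : Fin c) :
    Ob F w γ (n + 1) (F.ι (f i) * s) fun k => X i * b k := fun k => by
  obtain ⟨t, a1, Φ, a2, a3, a4⟩ := h k
  refine ⟨F.ι (f i) * t, mul_mem (F.iT _ _) a1, MvPolynomial.X i * Φ,
    add_comm 1 n ▸ (isHomogeneous_X E i).mul a2, ?_, by rw [map_mul, map_X, a4]⟩
  convert F.mul _ _ _ _ a3 (F.f_mem i) using 1
  rw [F.ev_mul, F.ev_X]; ring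

theorem Ob.sec (i : In F) (h : Ob F w γ n s b) (h' : Ob F w γ n s' b) :
    Sec F w γ (n + 1) (s - s') := fun k => by
  obtain ⟨t, a1, Φ, a2, a3, a4⟩ := h k
  obtain ⟨t', b1, Ψ, b2, b3, b4⟩ := h' k
  have := (i.qr n _ (a2.sub b2)).2 (by rw [map_sub, a4, b4, sub_self])
  refine ⟨t - t', sub_mem a1 b1, ?_⟩
  convert add_mem (sub_mem a3 b3) ((F.J _).mul_mem_left (γ k) this) using 1
  rw [F.ev_sub]; ring

theorem Sec.ob (i : In F) (dt : Dt φ w u a r) (g : Gm F w u a r γ α) (h : Sec F w γ n s) :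
    ∃ b, Ob F w γ n s b := by
  have : ∀ k, ∃ b, ∃ t ∈ F.T (w k), ∃ Φ : MvPolynomial (Fin c) E, Φ.IsHomogeneous n ∧
      γ k * s - t - γ k * F.ev Φ ∈ F.J (n + 1) ∧ map F.ρ Φ = b := fun k => by
    obtain ⟨t, a1, a2⟩ := h k
    obtain ⟨v, hv⟩ := (F.unit (γ k) (by rw [g.rg]; exact dt.u0 k)).exists_right_inv
    obtain ⟨Φ, a3, a4⟩ := i.ini n _ ((F.J n).mul_mem_left v a2)
    refine ⟨_, t, a1, Φ, a3, ?_, rfl⟩
    convert (F.J _).mul_mem_left (γ k) a4 using 1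
    linear_combination (t - γ k * s) * hv
  choose b hb using this
  exact ⟨b, hb⟩

theorem Ob.zc (i : In F) (dt : Dt φ w u a r) (g : Gm F w u a r γ α) (h : Ob F w γ n s b) :
    (∀ k, (b k).IsHomogeneous n) ∧ ∀ m, Zc φ w u fun k => coeff m (b k) := by
  choose t a1 Φ a2 a3 a4 using h
  refine ⟨fun k => a4 k ▸ (a2 k).map _, fun m k l => ?_⟩
  obtain ⟨e, e1, e2⟩ := g.tr k l
  have w0 : φ (w k * w l) ≠ 0 := by rw [map_mul]; exact mul_ne_zero (dt.w0 k) (dt.w0 l)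
  have hom := ((a2 k).sub (a2 l)).C_mul (γ k)
  have k1 : e * t l - t k - F.ev (C (γ k) * (Φ k - Φ l)) ∈ F.J (n + 1) := by
    convert sub_mem (a3 k) ((F.J _).mul_mem_left e (a3 l)) using 1
    rw [F.ev_mul, F.ev_C, F.ev_sub, e2]; ring
  obtain ⟨Ψ, b1, b2, b3⟩ := i.str _ w0 n (e * t l - t k)
    (by simpa using add_mem (F.anti n.le_succ k1) (i.ev n _ hom))
    (sub_mem (mul_mem e1 (i.right _ _ (a1 l))) (i.left _ _ (a1 k)))
  have k2 := (i.qr n _ (b1.sub hom)).1 (by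
    convert sub_mem k1 b3 using 1
    rw [F.ev_sub]; ring)
  refine (i.rT _ w0 _).2 ⟨_, b2 m, ?_⟩
  have k3 := congrArg (coeff m) k2
  rw [map_sub, map_mul, map_C, map_sub, a4, a4, g.rg, coeff_sub, coeff_C_mul, coeff_sub, coeff_map,
    coeff_zero, sub_eq_zero] at k3
  exact k3

/-- homogeneous lifts -/
theorem lift (n : ℕ) (S : Finset (Fin c →₀ ℕ)) (x : (Fin c →₀ ℕ) → E) :
    ∃ Φ : MvPolynomial (Fin c) E, Φ.IsHomogeneous n ∧
      ∀ m, coeff m Φ = if m ∈ S ∧ m.degree = n then x m else 0 := by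
  classical
  refine ⟨∑ m ∈ S.filter fun m => m.degree = n, monomial m (x m),
    IsHomogeneous.sum _ _ _ fun m k => isHomogeneous_monomial _ (Finset.mem_filter.1 k).2,
    fun m => ?_⟩
  simp only [coeff_sum, coeff_monomial, Finset.sum_ite_eq', Finset.mem_filter]

theorem ob_bd [Fintype κ] (i : In F) (dt : Dt φ w u a r) (g : Gm F w u a r γ α)
    (h : ∀ k, (b k).IsHomogeneous n) (h' : ∀ m, Bd φ w u fun k => coeff m (b k)) :
    ∃ s ∈ F.J n, Ob F w γ n s b := by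
  classical
  choose τ hτ using h'
  choose l hl using i.sur
  choose x x1 x2 using fun m k => (i.rT _ (dt.w0 k) _).1 (hτ m k)
  let S := Finset.univ.biUnion fun k => (b k).support
  obtain ⟨Θ, t1, t2⟩ := lift n S fun m => l (τ m)
  refine ⟨F.ev Θ, i.ev n _ t1, fun k => ?_⟩
  obtain ⟨Ψ, p1, p2⟩ := lift n S fun m => x m k
  obtain ⟨Φ, f1, f2⟩ := lift n S fun m => l (coeff m (b k))
  refine ⟨-F.ev Ψ, neg_mem (i.evT _ _ fun m => ?_), Φ, f1, ?_, ?_⟩
  · rw [p2]; split_ifs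
    exacts [x1 m k, zero_mem _]
  · have := (i.qr n _ (((t1.sub f1).C_mul (γ k)).add p1)).2 (by
      ext m
      rw [coeff_map, coeff_add, coeff_C_mul, coeff_sub, t2, f2, p2, coeff_zero]
      split_ifs
      · rw [map_add, map_mul, map_sub, hl, hl, x2, g.rg]; ring
      · simp)
    convert this using 1
    rw [F.ev_add, F.ev_mul, F.ev_C, F.ev_sub]; ring
  · ext m
    rw [coeff_map, f2]
    split_ifs with e
    · exact hl _
    · rw [map_zero]
      by_contra z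
      exact e ⟨Finset.mem_biUnion.2 ⟨k, Finset.mem_univ _, mem_support_iff.2 (Ne.symm z)⟩,
        by_contra fun y => z ((h k).coeff_eq_zero y).symm⟩

theorem rw_phi (w x : L) : φ x ∈ Rw φ w := ⟨x, 0, by simp⟩

theorem start [Fintype κ] (h : Bs φ f) (i : In F) (dt : Dt φ w u a r) (g : Gm F w u a r γ α)
    (hf : Hf φ w u) (n : ℕ) : ∃ s, F.ρ s ≠ 0 ∧ Sec F w γ (n + 1) s := by
  classical
  induction n with
  | zero =>
    choose p q q0 e using fun k => h.fr (u k)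
    refine ⟨F.ι (∏ k, q k), by
      rw [F.res, map_prod]; exact Finset.prod_ne_zero_iff.2 fun k _ => q0 k, fun k =>
      ⟨F.ι ((∏ l ∈ Finset.univ.erase k, q l) * p k), i.iT _ _, (F.ker _).1 ?_⟩⟩
    rw [map_sub, map_mul, g.rg, F.res, F.res, ← Finset.prod_erase_mul _ _ (Finset.mem_univ k),
      map_mul, map_mul, ← e]
    ring
  | succ n ih =>
    obtain ⟨s, s0, hs⟩ := ih
    obtain ⟨x, x0, hx⟩ := hf.1
    obtain ⟨b, hb⟩ := hs.ob i dt g
    obtain ⟨z1, z2⟩ := hb.zc i dt g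
    obtain ⟨s', h1, h2⟩ := ob_bd (b := fun k => C (φ x) * b k) i dt g (fun k => (z1 k).C_mul _)
      fun m => by simpa only [coeff_C_mul] using hx _ (z2 m)
    refine ⟨_, ?_, (hb.smul x).sec i h2⟩
    rw [map_sub, (F.ker _).2 (F.anti (by omega) h1), sub_zero, map_mul, F.res]
    exact mul_ne_zero x0 s0

end Ml

open Ml in
theorem mlr : MLR := by
  intro gr L K _ _ c φ f h E _ F i κ _ w u a r γ α dt g hf
  have := h.noe
  obtain ⟨n₀, H⟩ := gr L K φ c κ (Zc φ w u) (Bd φ w u) (fun n => {b | ∃ s, Ob F w γ n s b})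
    ⟨0, fun k => by simp⟩
    (fun b b' ⟨t, h⟩ ⟨t', h'⟩ => ⟨t + t', fun k => by
      convert add_mem (h k) (h' k) using 1
      rw [Pi.add_apply]; ring⟩)
    (fun x b ⟨t, h⟩ => ⟨φ x * t, fun k => by
      convert mul_mem (rw_phi _ x) (h k) using 1
      ring⟩) hf.2 fun n b ⟨s, hs⟩ => hs.zc i dt g
  have H := H (fun n => {b | ∃ s ∈ F.J (n - n₀), Ob F w γ n s b})
    (fun n => ⟨0, zero_mem _, fun k => ⟨0, zero_mem _, 0, isHomogeneous_zero _ _ _,
      by simp [F.ev_zero], map_zero _⟩⟩)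
    (fun n b ⟨s, h1, h2⟩ b' ⟨s', h3, h4⟩ => ⟨_, add_mem h1 h3, h2.add h4⟩)
    (fun n x b ⟨s, h1, h2⟩ => ⟨_, (F.J _).mul_mem_left _ h1, h2.smul x⟩)
    (fun n j b ⟨s, h1, h2⟩ => ⟨_, F.anti (by omega) (F.mul _ _ _ _ (F.f_mem j) h1), h2.X j⟩)
    (fun n hn b ⟨s, hs⟩ => ⟨s, by simp [Nat.sub_eq_zero_of_le hn, F.top], hs⟩)
    fun n b h1 h2 => (ob_bd i dt g h1 h2).imp fun s k => ⟨F.anti (Nat.sub_le _ _) k.1, k.2⟩
  have step : ∀ j s, ∃ s', Sec F w γ (n₀ + 1 + j) s →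
      Sec F w γ (n₀ + 1 + (j + 1)) s' ∧ s' - s ∈ F.J (j + 1) := fun j s => by
    by_cases hs : Sec F w γ (n₀ + 1 + j) s
    · obtain ⟨b, hb⟩ := hs.ob i dt g
      obtain ⟨s', h1, h2⟩ := H _ ⟨s, hb⟩
      exact ⟨s - s', fun _ => ⟨hb.sec i h2, by
        simpa using F.anti (show j + 1 ≤ n₀ + 1 + j - n₀ by omega) h1⟩⟩
    · exact ⟨0, fun k => (hs k).elim⟩
  choose nx hn using step
  obtain ⟨s₀, s0, hs⟩ := start h i dt g hf n₀
  let s : ℕ → E := fun j => Nat.rec s₀ nx j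
  have k : ∀ j, Sec F w γ (n₀ + 1 + j) (s j) := fun j => by
    induction j with
    | zero => exact hs
    | succ j ih => exact (hn j _ ih).1
  obtain ⟨e, he⟩ := F.cpl s fun j => F.anti j.le_succ (hn j _ (k j)).2
  refine ⟨e, ?_, fun l => i.cls _ _ fun j => ?_⟩
  · have k1 := (F.ker _).2 (he 1)
    have k2 := (F.ker (s 1 - s₀)).2 (hn 0 _ (k 0)).2
    rw [map_sub, sub_eq_zero] at k1 k2
    rwa [k1, k2]
  · obtain ⟨t, t1, t2⟩ := k j l
    refine ⟨t, t1, ?_⟩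
    convert add_mem ((F.J j).mul_mem_left (γ l) (he j)) (F.anti (by omega) t2) using 1
    ring

end Vale.Agent.P283R.Pu
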