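import Vale.Agent.P283R.Pu.St

/-!
# P283R, block PU: the basic properties of the completion
-/

set_option linter.all false

open Set MvPolynomial

noncomputable section

namespace Vale.Agent.P283R.Pu

section

variable {A : Type} [CommRing A] {D : A → A}

theorem Dr.zero (h : Dr D) : D 0 = 0 := by simpa using h.add 0 0

theorem Dr.neg (h : Dr D) (x : A) : D (-x) = -D x := by
  have := h.add x (-x)
  rw [add_neg_cancel, h.zero] at this
  exact (neg_eq_of_add_eq_zero_right this.symm).symm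

theorem Dr.sub (h : Dr D) (x y : A) : D (x - y) = D x - D y := by
  rw [sub_eq_add_neg, h.add, h.neg, sub_eq_add_neg]

theorem Dr.one (h : Dr D) : D 1 = 0 := by simpa using h.mul 1 1

theorem Dr.pow (h : Dr D) (x : A) (n : ℕ) : D (x ^ (n + 1)) = (n + 1 : ℕ) * x ^ n * D x := by
  induction n with
  | zero => simp
  | succ n ih => rw [pow_succ, h.mul, ih]; push_cast; ring

variable {c : ℕ} {g : Fin c → A}

/-- homogeneous polynomials are sums of monomials -/
theorem hom_ind {n : ℕ} {P : MvPolynomial (Fin c) A → Prop} {Φ : MvPolynomial (Fin c) A}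
    (h : Φ.IsHomogeneous n) (h0 : P 0) (ha : ∀ x y, P x → P y → P (x + y))
    (hm : ∀ m : Fin c →₀ ℕ, m.degree = n → P (monomial m (coeff m Φ))) : P Φ := by
  rw [Φ.as_sum]
  refine Finset.sum_induction _ P ha h0 fun m k => hm m ?_
  by_contra e
  exact mem_support_iff.1 k (h.coeff_eq_zero e)

theorem prod_mem {J : ℕ → Ideal A} (top : J 0 = ⊤)
    (mul : ∀ a b x y, x ∈ J a → y ∈ J b → x * y ∈ J (a + b)) (hg : ∀ i, g i ∈ J 1)
    (m : Fin c →₀ ℕ) : (m.prod fun i k => g i ^ k) ∈ J m.degree := by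
  have pw : ∀ i k, g i ^ k ∈ J k := fun i k => by
    induction k with
    | zero => simp [top]
    | succ k ih => rw [pow_succ]; exact mul _ _ _ _ ih (hg i)
  induction m using Finsupp.induction_linear with
  | zero => simp [top]
  | add a b x y =>
    rw [Finsupp.prod_add_index' (by simp) (by simp [pow_add]), map_add]
    exact mul _ _ _ _ x y
  | single i k => simpa using pw i k

/-- the elements of the powers of the ideal -/
theorem exists_hom (n : ℕ) {a : A} (h : a ∈ Id g ^ n) :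
    ∃ Φ : MvPolynomial (Fin c) A, Φ.IsHomogeneous n ∧ eval g Φ = a := by
  induction n generalizing a with
  | zero => exact ⟨C a, isHomogeneous_C _ _, by simp⟩
  | succ n ih =>
    rw [pow_succ] at h
    refine Submodule.mul_induction_on h (fun x hx y hy => ?_) fun x y ⟨Φ, a, b⟩ ⟨Ψ, a', b'⟩ =>
      ⟨Φ + Ψ, a.add a', by rw [map_add, b, b']⟩
    obtain ⟨Φ, a, rfl⟩ := ih hx
    obtain ⟨t, rfl⟩ := Ideal.mem_span_range_iff_exists_fun.1 hy
    refine ⟨Φ * ∑ i, C (t i) * X i, a.mul (IsHomogeneous.sum _ _ _ fun i _ => ?_), by simp⟩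
    simpa using (isHomogeneous_C _ (t i)).mul (isHomogeneous_X A i)

end

variable {L K E : Type} [CommRing L] [Field K] [CommRing E] {c : ℕ} {φ : L →+* K} {f : Fin c → L}
  (F : Fl φ f E)

namespace Fl

theorem f_mem (i : Fin c) : F.ι (f i) ∈ F.J 1 :=
  (F.pow 1 _).2 (by rw [pow_one]; exact Ideal.subset_span ⟨i, rfl⟩)

theorem ev_mon (m : Fin c →₀ ℕ) (a : E) :
    F.ev (monomial m a) = a * m.prod fun i k => F.ι (f i) ^ k := eval_monomial

theorem ev_add (Φ Ψ : MvPolynomial (Fin c) E) : F.ev (Φ + Ψ) = F.ev Φ + F.ev Ψ := map_add _ _ _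

theorem ev_sub (Φ Ψ : MvPolynomial (Fin c) E) : F.ev (Φ - Ψ) = F.ev Φ - F.ev Ψ := map_sub _ _ _

theorem ev_mul (Φ Ψ : MvPolynomial (Fin c) E) : F.ev (Φ * Ψ) = F.ev Φ * F.ev Ψ := map_mul _ _ _

theorem ev_zero : F.ev 0 = 0 := map_zero _

theorem ev_C (a : E) : F.ev (C a) = a := eval_C _

theorem ev_X (i : Fin c) : F.ev (X i) = F.ι (f i) := eval_X _

theorem ev_map (Φ : MvPolynomial (Fin c) L) : F.ev (map F.ι Φ) = F.ι (eval f Φ) := by
  rw [ev, eval_map, eval, coe_eval₂Hom, eval₂_comp_left]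
  rfl

theorem ev_mem {n : ℕ} {Φ : MvPolynomial (Fin c) E} (h : Φ.IsHomogeneous n) {k : ℕ}
    (hk : ∀ m, coeff m Φ ∈ F.J k) : F.ev Φ ∈ F.J (n + k) :=
  hom_ind (P := fun Ψ => F.ev Ψ ∈ F.J (n + k)) h (by simp [ev_zero])
    (fun x y a b => by rw [ev_add]; exact add_mem a b) fun m e => by
      rw [ev_mon, mul_comm, ← e]
      exact F.mul _ _ _ _ (prod_mem F.top F.mul F.f_mem m) (hk m)

theorem unit_ι {w : L} (h : φ w ≠ 0) : IsUnit (F.ι w) := F.unit _ (by rwa [F.res])

theorem iT (w a : L) : F.ι a ∈ F.T w := fun n => ⟨a, 0, by simp⟩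

theorem cls (w : L) (e : E) (h : ∀ n, ∃ t ∈ F.T w, e - t ∈ F.J n) : e ∈ F.T w := fun n => by
  obtain ⟨t, h1, h2⟩ := h n
  obtain ⟨a, j, h3⟩ := h1 n
  refine ⟨a, j, ?_⟩
  convert add_mem ((F.J n).mul_mem_left (F.ι w ^ j) h2) h3 using 1
  ring

theorem left (w w' : L) : F.T w ≤ F.T (w * w') := fun e h n => by
  obtain ⟨a, j, h⟩ := h n
  refine ⟨w' ^ j * a, j, ?_⟩
  convert (F.J n).mul_mem_left (F.ι w' ^ j) h using 1
  rw [map_mul, map_mul, map_pow]; ring

theorem inv_mem {w : L} {v : E} {j : ℕ} (h : F.ι w ^ j * v = 1) : v ∈ F.T w :=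
  fun n => ⟨1, j, by simp [h]⟩

/-- the initial form, with the denominator `s` -/
theorem ini0 {n : ℕ} {e s v : E} {a : L} (he : e ∈ F.J n) (hv : s * v = 1)
    (h : s * e - F.ι a ∈ F.J (n + 1)) : ∃ Φ : MvPolynomial (Fin c) L, Φ.IsHomogeneous n ∧
      e - F.ev (C v * map F.ι Φ) ∈ F.J (n + 1) := by
  have : F.ι a ∈ F.J n := by
    simpa using sub_mem ((F.J n).mul_mem_left s he) (F.anti n.le_succ h)
  obtain ⟨Φ, h1, rfl⟩ := exists_hom n ((F.pow n a).1 this)
  refine ⟨Φ, h1, ?_⟩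
  rw [ev_mul, ev_C, ev_map]
  convert (F.J _).mul_mem_left v h using 1
  rw [mul_sub, ← mul_assoc, mul_comm v s, hv, one_mul]

theorem hom_C {n : ℕ} {Φ : MvPolynomial (Fin c) L} (h : Φ.IsHomogeneous n) (v : E) :
    (C v * map F.ι Φ).IsHomogeneous n := (h.map _).C_mul _

theorem qr (h : Bs φ f) {n : ℕ} {Φ : MvPolynomial (Fin c) E} (hΦ : Φ.IsHomogeneous n)
    (e : F.ev Φ ∈ F.J (n + 1)) : map F.ρ Φ = 0 := by
  classical
  choose a w w0 hw using fun m => F.den (coeff m Φ) 1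
  let W := ∏ m ∈ Φ.support, w m
  have W0 : φ W ≠ 0 := by rw [map_prod]; exact Finset.prod_ne_zero_iff.2 fun m _ => w0 m
  let Ψ : MvPolynomial (Fin c) L :=
    ∑ m ∈ Φ.support, monomial m ((∏ m' ∈ Φ.support.erase m, w m') * a m)
  have cΨ : ∀ m, coeff m Ψ =
      if m ∈ Φ.support then (∏ m' ∈ Φ.support.erase m, w m') * a m else 0 := fun m => by
    simp only [Ψ, coeff_sum, coeff_monomial, Finset.sum_ite_eq']
  have hΨ : Ψ.IsHomogeneous n := IsHomogeneous.sum _ _ _ fun m k =>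
    isHomogeneous_monomial _ (by_contra fun e => mem_support_iff.1 k (hΦ.coeff_eq_zero e))
  have k : ∀ m, coeff m (C (F.ι W) * Φ - map F.ι Ψ) ∈ F.J 1 := fun m => by
    rw [coeff_sub, coeff_C_mul, coeff_map, cΨ]
    split_ifs with s
    · convert (F.J 1).mul_mem_left (F.ι (∏ m' ∈ Φ.support.erase m, w m')) (hw m) using 1
      rw [show W = _ from (Finset.prod_erase_mul _ _ s).symm, map_mul, map_mul]
      ring
    · simp [notMem_support_iff.1 s]
  have k1 := F.ev_mem ((hΦ.C_mul _).sub (hΨ.map _)) k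
  rw [ev_sub, ev_mul, ev_C, ev_map] at k1
  have k2 := h.qr n Ψ hΨ ((F.pow _ _).1
    (by simpa using sub_mem ((F.J _).mul_mem_left (F.ι W) e) k1))
  ext m
  have k3 := (F.ker _).2 (k m)
  have k4 := congrArg (coeff m) k2
  rw [coeff_map, coeff_zero] at k4
  rw [coeff_sub, coeff_C_mul, coeff_map, map_sub, map_mul, F.res, F.res, k4, sub_zero] at k3
  rw [coeff_map, coeff_zero, (mul_eq_zero.1 k3).resolve_left W0]

end Fl

theorem ini : INI := fun L K _ _ c φ f h E _ F =>
  { qr := fun n Φ hΦ => ⟨F.qr h hΦ, fun e => F.ev_mem hΦ fun m => (F.ker _).1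
      (by simpa only [coeff_map, coeff_zero] using congrArg (coeff m) e)⟩
    ev := fun n Φ hΦ => F.ev_mem hΦ (k := 0) fun m => by simp [F.top]
    ini := fun n e he => by
      obtain ⟨a, w, w0, k⟩ := F.den e (n + 1)
      obtain ⟨v, hv⟩ := (F.unit_ι w0).exists_right_inv
      obtain ⟨Φ, h1, h2⟩ := F.ini0 he hv k
      exact ⟨_, F.hom_C h1 v, h2⟩
    str := fun w w0 n e he hT => by
      obtain ⟨a, j, k⟩ := hT (n + 1)
      obtain ⟨v, hv⟩ := ((F.unit_ι w0).pow j).exists_right_inv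
      obtain ⟨Φ, h1, h2⟩ := F.ini0 he hv k
      exact ⟨_, F.hom_C h1 v, fun m => by
        rw [coeff_C_mul, coeff_map]; exact mul_mem (F.inv_mem hv) (F.iT _ _), h2⟩
    evT := fun w Φ k => by
      rw [Φ.as_sum, Fl.ev, map_sum]
      refine sum_mem fun m _ => ?_
      rw [eval_monomial]
      exact mul_mem (k m) (_root_.prod_mem fun i _ => pow_mem (F.iT _ _) _)
    sur := fun x => by
      obtain ⟨a, b, b0, e⟩ := h.fr x
      obtain ⟨v, hv⟩ := (F.unit_ι b0).exists_right_inv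
      refine ⟨v * F.ι a, mul_left_cancel₀ b0 ?_⟩
      rw [e, ← F.res b, ← map_mul, ← mul_assoc, hv, one_mul, F.res]
    rT := fun w w0 x => ⟨fun ⟨a, j, e⟩ => by
        obtain ⟨v, hv⟩ := ((F.unit_ι w0).pow j).exists_right_inv
        refine ⟨v * F.ι a, mul_mem (F.inv_mem hv) (F.iT _ _), mul_left_cancel₀ (pow_ne_zero j w0) ?_⟩
        rw [e, ← F.res w, ← map_pow, ← map_mul, ← mul_assoc, hv, one_mul, F.res],
      fun ⟨e, he, k⟩ => by
        obtain ⟨a, j, he⟩ := he 1
        have := (F.ker _).2 he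
        rw [map_sub, map_mul, map_pow, F.res, F.res, k, sub_eq_zero] at this
        exact ⟨a, j, this⟩⟩
    cls := F.cls
    iT := F.iT
    left := F.left
    right := fun w w' => mul_comm w' w ▸ F.left w' w
    dT := fun w D d hd h1 h2 e he n => by
      obtain ⟨a, j, k⟩ := he (n + 1)
      refine ⟨w * D a - j * D w * a, j + 1, ?_⟩
      have k1 := h2 n _ k
      rw [hd.sub, hd.mul, h1] at k1
      have k2 : F.ι w * d (F.ι w ^ j) = j * F.ι w ^ j * F.ι (D w) := by
        rcases j with _ | j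
        · simp [hd.one]
        · rw [hd.pow, h1]; ring
      convert sub_mem ((F.J n).mul_mem_left (F.ι w) k1)
        ((F.J n).mul_mem_left (j * F.ι (D w)) (F.anti n.le_succ k)) using 1
      simp only [map_sub, map_mul, map_natCast]
      linear_combination -e * k2 }

end Vale.Agent.P283R.Pu
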