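import Vale.Agent.P283R.Pu.Su
import Vale.Agent.P283R.Pu.Ini
import Vale.Agent.P283R.Tp.Ufd
import Vale.Agent.P283R.H.Res1
import Vale.Agent.P283R.H.Tpd

/-!
# P283R, block PU: from the local algebra to the places
-/

set_option linter.all false

open Set

noncomputable section

namespace Vale.Agent.P283R.Pu

open Vale.Agent.P287D Vale.Agent.P297Z Vale.Agent.P283R.Uf

namespace P77

variable {F F' : Type} [Field F] [Algebra ℂ F] [Field F'] [Algebra ℂ F'] {N c : ℕ}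
  {S : Subalgebra ℂ F} {S' : Subalgebra ℂ F'} {q : Ideal S}

theorem td_eq (h : Aff N S) : Dim.td ℂ S = N := by
  have := h.isFrac
  have := h.ft
  have b := h.ff.trdeg
  rwa [Qw.trd (S := S), Dim.trdeg_eq_td, Nat.cast_inj] at b

theorem ht_comap (h : Aff N S) (h' : Aff (N + c) S') {π : S' →ₐ[ℂ] S}
    (hs : Function.Surjective π) (p : Ideal S) [p.IsPrime] :
    (p.comap π).height = p.height + c := by
  have := h.ft
  have := h'.ft
  have := Ideal.comap_isPrime π p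
  have a := Dim.height_add_td (k := ℂ) p
  have b := Dim.height_add_td (k := ℂ) (p.comap π)
  have e : (S' ⧸ p.comap π) ≃ₐ[ℂ] S ⧸ p := AlgEquiv.ofBijective (Ideal.quotientMapₐ p π le_rfl)
    ⟨Ideal.quotientMap_injective, Ideal.quotientMap_surjective (H := le_rfl) hs⟩
  have k := e.trdeg_eq
  rw [Dim.trdeg_eq_td, Dim.trdeg_eq_td, Nat.cast_inj] at k
  rw [k, td_eq h', Nat.cast_add, ← td_eq h, ← a, add_right_comm] at b
  exact WithTop.add_right_cancel (ENat.coe_ne_top _) b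

theorem pd {R : Pl F} (h : PDat S q R) : PD S R := let ⟨p, _, a, b⟩ := h; ⟨p, a, b⟩

theorem nn {R : Pl F} (h : PDat S q R) (s : S) : 0 ≤ R.ord (s : F) :=
  let ⟨_, _, a, _⟩ := h; Pl.ord_nonneg_of_mem _ (a s).1

theorem mem_of {R : Pl F} {x : F} (h : 0 ≤ R.ord x) (x0 : x ≠ 0) : x ∈ R.ring :=
  (Pl.ord_nonneg_iff _ x0).1 h

theorem ht_le (h : Aff N S) {p : Ideal S} {R : Pl F} (k : Cen S p R)
    (l : ∀ a ∈ R.ring, a ∈ Lo S p) : p.height ≤ 2 := by
  have := h.noeth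
  have := Dr13.cen_prime k
  by_cases e : p = ⊥
  · simp [e]
  obtain ⟨s, s1, s0⟩ := Submodule.exists_mem_ne_zero_of_ne_bot e
  have s2 : (s : F) ≠ 0 := fun z => s0 (Subtype.ext z)
  refine (Ideal.height_le_one_of_isPrincipal_of_mem_minimalPrimes (Ideal.span {s}) p
    ⟨⟨this, (Ideal.span_singleton_le_iff_mem _).2 s1⟩, fun J hJ le a ha => ?_⟩).trans one_le_two
  by_cases a0 : (a : F) = 0
  · exact (Subtype.ext a0 : a = 0) ▸ J.zero_mem
  have pos := ((On.rd_zero_iff R (k a).1).1 ((k a).2.1 ha)).resolve_left a0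
  obtain ⟨n, hn⟩ := Int.eq_ofNat_of_zero_le (Pl.ord_nonneg_of_mem _ (k s).1)
  obtain ⟨u, v, hv, e⟩ := l ((a : F) ^ n / s) (mem_of (by
    rw [Pl.ord_div _ (pow_ne_zero _ a0) s2, Pl.ord_pow, hn]
    nlinarith [Int.natCast_nonneg n]) (div_ne_zero (pow_ne_zero _ a0) s2))
  rw [div_eq_div_iff s2 (ne_of hv)] at e
  have e' : a ^ n * v = u * s := Subtype.ext e
  exact hJ.1.mem_of_pow_mem n ((hJ.1.mem_or_mem (e' ▸ J.mul_mem_left u
    (hJ.2 (Ideal.mem_span_singleton_self s)))).resolve_right fun z => hv (le z))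

theorem away (hrt : HRT) (h : Aff N S) (n : IsIntegrallyClosed S) (hq : q.IsPrime) {W : S}
    (W0 : (W : F) ≠ 0) {x : F} (x0 : x ≠ 0)
    (hx : ∀ R, PDat S q R → R.ord (W : F) = 0 → 0 ≤ R.ord x) : ∃ j : ℕ, W ^ j * x ∈ Lo S q := by
  obtain ⟨h1, -, h3, -⟩ := hrt N F S h n
  obtain ⟨j, hj⟩ := ((h1 x).image fun R => (-R.ord x).toNat).bddAbove
  refine ⟨j, h3 q hq _ fun R hR => mem_of ?_ (mul_ne_zero (pow_ne_zero _ W0) x0)⟩
  rw [Pl.ord_mul _ (pow_ne_zero _ W0) x0, Pl.ord_pow]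
  have a := nn hR W
  by_cases e : R.ord (W : F) = 0
  · simpa [e] using hx R hR e
  by_cases e' : R.ord x = 0
  · rw [e', add_zero]; positivity
  have b : (-R.ord x).toNat ≤ j := hj ⟨R, ⟨pd hR, e'⟩, rfl⟩
  have : (j : ℤ) * 1 ≤ j * R.ord (W : F) := mul_le_mul_of_nonneg_left (by omega) (by omega)
  omega

/-- a function which does not vanish at `p` and vanishes on the bad prime divisors -/
theorem exists_w {p : Ideal S} (hp : p.IsPrime) {T : Set (Pl F)} (hT : T.Finite)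
    (h : ∀ R ∈ T, PD S R ∧ ¬ PDat S p R) : ∃ W : S, W ∉ p ∧ ∀ R ∈ T, R.ord (W : F) ≠ 0 := by
  induction T, hT using Set.Finite.induction_on with
  | empty => exact ⟨1, Dr13.one_not hp, fun _ k => k.elim⟩
  | @insert R T _ _ ih =>
    obtain ⟨W, a, b⟩ := ih fun R k => h R (Or.inr k)
    obtain ⟨⟨r, r1, r2⟩, k⟩ := h R (Or.inl rfl)
    obtain ⟨s, s1, s2⟩ := SetLike.not_le_iff_exists.1 fun e : r ≤ p => k ⟨r, e, r1, r2⟩
    have pos := ((On.rd_zero_iff R (r1 s).1).1 ((r1 s).2.1 s1)).resolve_left (ne_of s2)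
    refine ⟨s * W, Dr13.mul_not hp s2 a, fun R' hR => ?_⟩
    obtain ⟨⟨_, t1, -⟩, -⟩ := h R' hR
    have n1 := Pl.ord_nonneg_of_mem _ (t1 s).1
    have n2 := Pl.ord_nonneg_of_mem _ (t1 W).1
    rw [MulMemClass.coe_mul, Pl.ord_mul _ (ne_of s2) (ne_of a)]
    rcases hR with rfl | hR
    · omega
    · have := b R' hR
      omega

/-- the finite cover -/
theorem cover (hrt : HRT) (h : Aff N S) (n : IsIntegrallyClosed S) {b : Pl F → ℤ} {a : F} {m : ℕ}
    (m0 : 0 < m) (ha : ∀ R, PDat S q R → R.ord a = m * b R)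
    (h2 : ∀ p ≤ q, p.IsPrime → p.height ≤ 2 → ∃ u : F, u ≠ 0 ∧ ∀ R, PDat S p R → R.ord u = b R) :
    ∃ (κ : Type) (_ : Fintype κ) (W : κ → S) (u : κ → F), (∀ k, (W k : F) ≠ 0) ∧ (∀ k, u k ≠ 0) ∧
      (∀ k R, PDat S q R → R.ord (W k : F) = 0 → R.ord (u k) = b R) ∧
      ∀ p ≤ q, p.IsPrime → p.height ≤ 2 → ∃ k, W k ∉ p := by
  have fin := (hrt N F S h n).1
  have : ∀ p : {p : Ideal S // p ≤ q ∧ p.IsPrime ∧ p.height ≤ 2}, ∃ (W : S) (u : F), W ∉ p.1 ∧
      u ≠ 0 ∧ ∀ R, PDat S q R → R.ord (W : F) = 0 → R.ord u = b R := fun ⟨p, p1, p2, p3⟩ => by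
    obtain ⟨u, u0, hu⟩ := h2 p p1 p2 p3
    obtain ⟨W, w1, w2⟩ := exists_w p2 (T := {R | PDat S q R ∧ R.ord u ≠ b R})
      (((fin u).union (fin a)).subset fun R ⟨r1, r2⟩ => by
        by_contra k
        simp only [mem_union, mem_setOf, pd r1, true_and, not_or, not_not] at k
        have := ha R r1
        rw [k.2] at this
        exact r2 (k.1.trans ((mul_eq_zero.1 this.symm).resolve_left (by omega)).symm))
      fun R ⟨r1, r2⟩ => ⟨pd r1, fun k => r2 (hu R k)⟩
    exact ⟨W, u, w1, u0, fun R r1 e => by_contra fun k => w2 R ⟨r1, k⟩ e⟩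
  choose W u w1 u0 hu using this
  have := h.ft
  have := Algebra.FiniteType.isNoetherianRing ℂ S
  obtain ⟨s, s1, s2⟩ := (Submodule.fg_span_iff_fg_span_finset_subset (R := S) (range W)).1
    (IsNoetherian.noetherian _)
  choose i hi using fun k : s => s1 k.2
  refine ⟨s, inferInstance, fun k => W (i k), fun k => u (i k), fun k => ne_of (w1 _),
    fun k => u0 _, fun k => hu _, fun p p1 p2 p3 => by_contra fun k => ?_⟩
  push Not at k
  have le : Submodule.span S (s : Set S) ≤ p := Submodule.span_le.2 fun x hx => by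
    have := k ⟨x, hx⟩
    rwa [hi] at this
  exact w1 ⟨p, p1, p2, p3⟩ (le (s2 ▸ Submodule.subset_span (mem_range_self _)))

theorem isLoc {p : Ideal S} (hp : p.IsPrime) :
    letI : Algebra S (Dr13.loc hp) := (Subalgebra.inclusion (Dr13.coe_mem hp ⟨·, ·⟩)).toAlgebra
    IsLocalization.AtPrime (Dr13.loc hp) p := by
  letI : Algebra S (Dr13.loc hp) := (Subalgebra.inclusion (Dr13.coe_mem hp ⟨·, ·⟩)).toAlgebra
  refine (isLocalization_iff _ _).2 ⟨fun t => IsUnit.of_mul_eq_one ⟨_, Dr13.inv_mem hp t.2⟩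
    (Subtype.ext (mul_inv_cancel₀ (ne_of (t := t.1) (p := p) t.2))), ?_, fun {x y} e => ⟨1, ?_⟩⟩
  · rintro ⟨_, s, t, ht, rfl⟩
    exact ⟨(s, ⟨t, ht⟩), Subtype.ext (div_mul_cancel₀ _ (ne_of ht))⟩
  · rw [show x = y from Subtype.ext (congrArg (fun z : Dr13.loc hp => (z : F)) e)]

end P77

open P77 H.Re Dr13 in
theorem purr77 : PURR := by
  intro pu0 cm eig der hrt res N c Q F F' _ _ _ _ G S G' S' π f q y m g pr l hq hb h2
  have hq' : (q.comap π).IsPrime := Ideal.comap_isPrime π q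
  obtain ⟨J, hJ⟩ := eig (N + c)
  obtain ⟨A', k, r, x, t, -, -, par, -, -⟩ := hJ F' S' G' _ l.aff l.sm l.fin l.stab hq'
  have dim : N + c = k + r := Gm.ff_uniq par.aff.ff l.aff.ff
  obtain ⟨D', fr, pre, -⟩ := der k r F' S' _ x t par
  have ker : ∀ a, π a = 0 ↔ a ∈ Ideal.span (range f) := fun a => l.ker ▸ RingHom.mem_ker.symm
  have up : H.Up N π q f (Fin.append x fun i => (t i : F')) D' :=
    ⟨pr.aff, pr.nor, par.aff, l.sm, by omega, l.sur, hq,
      fun i => (ker _).2 (Ideal.subset_span ⟨i, rfl⟩),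
      fun a e => ⟨1, by simpa using one_not hq, by simpa using (ker a).1 e⟩, fr, fun a => by
      refine Fin.addCases (fun a => ?_) (fun a => ?_) a
      · obtain ⟨s, -, e⟩ := par.mem a
        rw [Fin.append_left, ← e]; exact s.2
      · rw [Fin.append_right]; exact (t a).2, pre⟩
  obtain ⟨j, j0, -, kj⟩ := res F F' S S' π q N c _ f _ D' up y pr.fr
  choose! b hb using hb
  have m0 : (m : ℝ) ≠ 0 := Nat.cast_ne_zero.2 pr.pos.ne'
  have a0 : (g / j ^ m) ^ Q ≠ 0 := pow_ne_zero _ (div_ne_zero pr.ne (pow_ne_zero _ j0))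
  have ha : ∀ R, PDat S q R → R.ord ((g / j ^ m) ^ Q) = m * (b R : ℤ) := fun R hR => by
    have e := hb R hR
    rw [ld, kj R hR] at e
    rw [Pl.ord_pow, Pl.ord_div _ pr.ne (pow_ne_zero _ j0), Pl.ord_pow]
    have : (Q : ℝ) * (R.ord g - m * R.ord j) = m * b R := by rw [← e]; field_simp; ring
    exact_mod_cast this
  obtain ⟨κ, _, W, u, W0, u0, hu, cov⟩ := cover hrt pr.aff pr.nor pr.pos ha fun p p1 p2 p3 => by
    obtain ⟨h, -, h0, e⟩ := h2 p p1 p2 p3
    refine ⟨h, h0, fun R hR => ?_⟩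
    have := (e R hR).symm.trans (hb R (let ⟨z, z1, z2⟩ := hR; ⟨z, z1.trans p1, z2⟩))
    exact_mod_cast this
  choose w hw using fun k => l.sur (W k)
  have hk : ∀ s, π s = 0 → s ∈ q.comap π := fun s e => by
    rw [Ideal.mem_comap, e]; exact zero_mem _
  let L := loc hq'
  letI : Algebra S' L := (Subalgebra.inclusion (coe_mem hq' ⟨·, ·⟩)).toAlgebra
  have := isLoc hq'
  have := l.sm
  have : IsLocalRing L := IsLocalization.AtPrime.isLocalRing L (q.comap π)
  have := P299.R.isRegularRing_of_smooth_of_atPrime ℂ S' L (q.comap π)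
  have : IsRegularLocalRing L := IsRegularLocalRing.of_isRegularRing_of_isLocalRing L
  let φ : L →+* F := rho hq' hk
  have φa : ∀ s : S', φ (algebraMap S' L s) = π s := fun s => rh_coe s
  let f' : Fin c → L := fun i => algebraMap S' L (f i)
  have idf : Id f' = (RingHom.ker π).map (algebraMap S' L) := by
    rw [l.ker, Ideal.map_span, ← range_comp]; rfl
  have kerφ : ∀ a, φ a = 0 ↔ a ∈ Id f' := fun a => by
    obtain ⟨s, v, rfl⟩ := IsLocalization.exists_mk'_eq (q.comap π).primeCompl a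
    have e := congrArg φ (IsLocalization.mk'_spec L s v)
    rw [map_mul, φa, φa] at e
    have v0 : (π v : F) ≠ 0 := fun z => v.2 (hk _ (Subtype.ext z))
    refine ⟨fun z => ?_, fun z => ?_⟩
    · rw [idf, IsLocalization.mk'_eq_mul_mk'_one]
      exact Ideal.mul_mem_right _ _ (Ideal.mem_map_of_mem _ (Subtype.ext (by rw [← e, z]; simp)))
    · refine Submodule.span_induction (p := fun a _ => φ a = 0) ?_ (map_zero _)
        (fun _ _ _ _ a b => by rw [map_add, a, b, add_zero])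
        (fun _ _ _ a => by rw [smul_eq_mul, map_mul, a, mul_zero]) z
      rintro _ ⟨i, rfl⟩
      rw [φa, up.ker]; rfl
  have und : ∀ P : Ideal L, P.IsPrime → Id f' ≤ P → ∃ p ≤ q, p.IsPrime ∧
      P.height = p.height + c ∧ ∀ s, π s ∈ p ↔ algebraMap S' L s ∈ P := fun P hP le => by
    have k1 : RingHom.ker π ≤ P.comap (algebraMap S' L) := Ideal.map_le_iff_le_comap.1 (idf ▸ le)
    have k2 := Ideal.map_isPrime_of_surjective l.sur k1
    have k3 : ((P.comap (algebraMap S' L)).map π).comap π = P.comap (algebraMap S' L) := by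
      rw [Ideal.comap_map_of_surjective _ l.sur, sup_eq_left]; exact k1
    refine ⟨_, Ideal.map_le_iff_le_comap.2 fun s hs => ?_, k2, ?_, fun s => ?_⟩
    · exact (IsLocalization.AtPrime.to_map_mem_maximal_iff L _ s).1
        (IsLocalRing.le_maximalIdeal hP.ne_top hs)
    · rw [← ht_comap pr.aff l.aff l.sur, k3]
      exact (IsLocalization.height_under (q.comap π).primeCompl P).symm
    · rw [← Ideal.mem_comap, k3, Ideal.mem_comap]
  have pI : (Id f').IsPrime := by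
    rw [show Id f' = RingHom.ker φ from Ideal.ext fun a => (kerφ a).symm]
    exact RingHom.ker_isPrime φ
  obtain ⟨qr, c3⟩ := cm L F c φ f' kerφ (by
    obtain ⟨p, -, -, e, k⟩ := und _ pI le_rfl
    have : p = ⊥ := eq_bot_iff.2 fun s hs => by
      obtain ⟨s, rfl⟩ := l.sur s
      exact Subtype.ext ((φa s).symm.trans ((kerφ _).2 ((k s).1 hs)))
    rw [e, this, Ideal.height_bot, zero_add])
  have lo : ∀ z ∈ Lo S q, ∃ a, z = φ a := by
    rintro _ ⟨s, v, hv, rfl⟩
    obtain ⟨s, rfl⟩ := l.sur s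
    obtain ⟨v, rfl⟩ := l.sur v
    exact ⟨⟨_, s, v, hv, rfl⟩, (rh_div s fun e => hv (e ▸ zero_mem _)).symm⟩
  have ol : ∀ a, φ a ∈ Lo S q := by
    rintro ⟨_, s, v, hv, rfl⟩
    exact ⟨π s, π v, hv, rh_div s fun e => hv (hk _ e)⟩
  have mem : ∀ (v : S') (z : F), (π v : F) ≠ 0 → z ≠ 0 →
      (∀ R, PDat S q R → R.ord (π v : F) = 0 → 0 ≤ R.ord z) → z ∈ Rw φ (algebraMap S' L v) :=
    fun v z v0 z0 e => by
      obtain ⟨i, hi⟩ := away hrt pr.aff pr.nor hq v0 z0 e
      obtain ⟨a, e⟩ := lo _ hi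
      exact ⟨a, i, by rw [φa, e]⟩
  have w0 : ∀ k, (π (w k) : F) ≠ 0 := fun k => by rw [hw]; exact W0 k
  choose xs x1 x2 using par.mem
  obtain ⟨τ, τ0, hτ⟩ := pu0 L F c φ f' ⟨inferInstance, fun n n0 => by
      simpa using (IsUnit.mk0 (n : ℂ) (Nat.cast_ne_zero.2 n0.ne')).map (algebraMap ℂ L), kerφ,
      fun z => by
        obtain ⟨s, v, rfl⟩ := pr.aff.fr z
        obtain ⟨s, rfl⟩ := l.sur s
        obtain ⟨v, rfl⟩ := l.sur v
        by_cases e : (π v : F) = 0
        · exact ⟨0, 1, by simp, by simp [e]⟩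
        · exact ⟨algebraMap S' L s, algebraMap S' L v, by rwa [φa], by
            rw [φa, φa, mul_div_cancel₀ _ e]⟩, qr⟩ k (fun i => algebraMap S' L (xs i))
    (fun i => dA pre (Fin.castAdd r i)) κ (fun k => algebraMap S' L (w k)) u _ m
    ⟨by
      rw [← IsLocalization.AtPrime.map_eq_maximalIdeal (q.comap π) L]
      refine le_antisymm (Ideal.map_le_iff_le_comap.2 fun a ha => ?_)
        (Ideal.span_le.2 (by rintro _ ⟨i, rfl⟩; exact Ideal.mem_map_of_mem _ (x1 i)))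
      obtain ⟨z, z1, z2⟩ := par.gen a ha
      exact Ideal.mem_span_range_iff_exists_fun.2 ⟨fun i => ⟨z i, z1 i⟩, Subtype.ext (by
        rw [AddSubmonoidClass.coe_finset_sum]
        exact (Finset.sum_congr rfl fun i _ => by rw [← x2]; rfl).trans z2.symm)⟩,
    fun i => ⟨(da_dA pre _).add, (da_dA pre _).mul⟩, fun i i' => Subtype.ext (by
      have := fr.dual (Fin.castAdd r i) (Fin.castAdd r i')
      rw [Fin.append_left, ← x2] at this
      refine this.trans ?_
      by_cases e : i = i' <;> simp [e])⟩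
    ⟨pr.pos, fun k => by rw [φa]; exact w0 k, u0, a0,
      fun k => mem _ _ (w0 k) (div_ne_zero (pow_ne_zero _ (u0 k)) a0) fun R hR e => by
        rw [Pl.ord_div _ (pow_ne_zero _ (u0 k)) a0, Pl.ord_pow, ha R hR, hu k R hR (hw k ▸ e),
          sub_self],
      fun k => mem _ _ (w0 k) (div_ne_zero a0 (pow_ne_zero _ (u0 k))) fun R hR e => by
        rw [Pl.ord_div _ a0 (pow_ne_zero _ (u0 k)), Pl.ord_pow (n := m), ha R hR,
          hu k R hR (hw k ▸ e), sub_self],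
      fun k k' => by
        rw [← map_mul]
        refine mem _ _ (by rw [map_mul]; exact mul_ne_zero (w0 k) (w0 k'))
          (div_ne_zero (u0 k) (u0 k')) fun R hR e => ?_
        rw [map_mul, MulMemClass.coe_mul, Pl.ord_mul _ (w0 k) (w0 k'), hw, hw] at e
        have n1 := nn hR (W k)
        have n2 := nn hR (W k')
        rw [Pl.ord_div _ (u0 k) (u0 k'), hu k R hR (by omega), hu k' R hR (by omega), sub_self]⟩
    (c3 κ _ fun P hP le ht => by
      obtain ⟨p, p1, p2, e, k⟩ := und P hP le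
      obtain ⟨i, hi⟩ := cov p p1 p2 (by
        rw [e, add_comm (c : ℕ∞)] at ht
        exact (WithTop.add_le_add_iff_right (ENat.coe_ne_top c)).1 ht)
      exact ⟨i, fun z => hi (hw i ▸ (k _).2 z)⟩)
  have od : ∀ R, PDat S q R → R.ord τ⁻¹ = b R := fun R hR => by
    obtain ⟨p, p1, p2, p3⟩ := id hR
    obtain ⟨i, hi⟩ := cov p p1 (cen_prime p2) (ht_le pr.aff p2 p3)
    have e := cen_ord p2 hi
    have k : ∀ z : F, z ≠ 0 → z ∈ Rw φ (algebraMap S' L (w i)) → 0 ≤ R.ord z :=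
      fun z z0 ⟨a, n, h⟩ => by
        have := Pl.ord_nonneg_of_mem _ (pd_lo hR (ol a))
        rwa [← h, φa, hw, Pl.ord_mul _ (pow_ne_zero _ (W0 i)) z0, Pl.ord_pow, e, mul_zero,
          zero_add] at this
    have z0 := mul_ne_zero (u0 i) τ0
    have k1 := k _ z0 (hτ i).1
    have k2 := k _ (inv_ne_zero z0) (hτ i).2
    rw [Pl.ord_inv, Pl.ord_mul _ (u0 i) τ0, hu i R hR e] at *
    omega
  refine ⟨τ⁻¹, (hrt N F S pr.aff pr.nor).2.2.1 q hq _ fun R hR => mem_of ?_ (inv_ne_zero τ0),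
    inv_ne_zero τ0, fun R hR => ?_⟩
  · rw [od R hR]; positivity
  · rw [od R hR, hb R hR]; simp

end Vale.Agent.P283R.Pu
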