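import Vale.Agent.P283R.Pu.St
import Mathlib.RingTheory.Filtration

/-!
# P283R, block PU: sets which are stable under the derivations
-/

open Set

noncomputable section

namespace Vale.Agent.P283R.Pu

namespace Stb

variable {A : Type} [CommRing A] {D : A → A}

theorem d_zero (h : Dr D) : D 0 = 0 := by
  have := h.add 0 0
  rw [add_zero] at this
  exact left_eq_add.1 this

theorem d_sub (h : Dr D) (x y : A) : D (x - y) = D x - D y := by
  have := h.add (x - y) y
  rw [sub_add_cancel] at this
  rw [this, add_sub_cancel_right]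

variable [IsLocalRing A] {n : ℕ} {x : Fin n → A} {D : Fin n → A → A}

open IsLocalRing

/-- the Euler derivation -/
def eu (x : Fin n → A) (D : Fin n → A → A) (a : A) : A := ∑ i, x i * D i a

theorem x_mem (h : Eu x D) (i : Fin n) : x i ∈ maximalIdeal A :=
  h.gen.ge (Ideal.subset_span (mem_range_self i))

theorem eu_add (h : Eu x D) (a b : A) : eu x D (a + b) = eu x D a + eu x D b := by
  simp only [eu, (h.dr _).add, mul_add, Finset.sum_add_distrib]

theorem eu_mul (h : Eu x D) (a b : A) : eu x D (a * b) = a * eu x D b + b * eu x D a := by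
  simp only [eu, (h.dr _).mul, Finset.mul_sum, ← Finset.sum_add_distrib]
  exact Finset.sum_congr rfl fun i _ => by ring

theorem eu_mem (h : Eu x D) {k : ℕ} {a : A} (ha : ∀ i, D i a ∈ maximalIdeal A ^ k) :
    eu x D a ∈ maximalIdeal A ^ (k + 1) :=
  Ideal.sum_mem _ fun i _ => by
    rw [pow_succ']
    exact Ideal.mul_mem_mul (x_mem h i) (ha i)

theorem eu_mem0 (h : Eu x D) (a : A) : eu x D a ∈ maximalIdeal A :=
  Ideal.sum_mem _ fun i _ => Ideal.mul_mem_right _ _ (x_mem h i)

theorem eu_one (h : Eu x D) {b : A} (hb : b ∈ maximalIdeal A) :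
    eu x D b - b ∈ maximalIdeal A ^ 2 := by
  have k : b ∈ Ideal.span (range x) := h.gen.le hb
  induction k using Submodule.span_induction with
  | mem b hb' =>
    obtain ⟨j, rfl⟩ := hb'
    have : eu x D (x j) = x j := by simp [eu, h.dual]
    rw [this, sub_self]
    exact zero_mem _
  | zero =>
    have : eu x D 0 = 0 := by simp [eu, d_zero (h.dr _)]
    rw [this, sub_self]
    exact zero_mem _
  | add a b ha hb' k1 k2 =>
    have := add_mem (k1 (h.gen.ge ha)) (k2 (h.gen.ge hb'))
    rwa [sub_add_sub_comm, ← eu_add h] at this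
  | smul c a ha k1 =>
    have e : eu x D (c • a) - c • a = c * (eu x D a - a) + a * eu x D c := by
      rw [smul_eq_mul, eu_mul h]; ring
    rw [e]
    refine add_mem (Ideal.mul_mem_left _ _ (k1 (h.gen.ge ha))) ?_
    rw [pow_two]
    exact Ideal.mul_mem_mul (h.gen.ge ha) (eu_mem0 h c)

theorem eu_pow (h : Eu x D) (k : ℕ) : ∀ a ∈ maximalIdeal A ^ k,
    eu x D a - k * a ∈ maximalIdeal A ^ (k + 1) := by
  induction k with
  | zero =>
    intro a _
    simpa using eu_mem0 h a
  | succ k ih =>
    intro a ha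
    rw [pow_succ] at ha
    refine Submodule.mul_induction_on ha (fun a ha b hb => ?_) fun a b k1 k2 => ?_
    · have e : eu x D (a * b) - ((k + 1 : ℕ) : A) * (a * b) =
          a * (eu x D b - b) + (eu x D a - k * a) * b := by
        rw [eu_mul h]; push_cast; ring
      rw [e]
      refine add_mem ?_ ?_
      · rw [show k + 1 + 1 = k + 2 from rfl, pow_add]
        exact Ideal.mul_mem_mul ha (eu_one h hb)
      · rw [pow_succ]
        exact Ideal.mul_mem_mul (ih a ha) hb
    · have := add_mem k1 k2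
      rwa [sub_add_sub_comm, ← eu_add h, ← mul_add] at this

end Stb

open Stb IsLocalRing in
/-- **STAB** -/
theorem stab : STAB := by
  intro L K _ _ c φ f bs _ E _ F n x D d N hx hd hι hJ hT hm hN t ht
  have kerm : ∀ a, φ a = 0 → a ∈ maximalIdeal L := fun a ha =>
    (mem_maximalIdeal a).2 fun u => (u.map φ).ne_zero ha
  have cl : ∀ t ∈ AddSubmonoid.closure N, (∃ a ∈ maximalIdeal L, F.ρ t = φ a) ∧
      ∀ i, d i t ∈ AddSubmonoid.closure N := by
    intro t ht
    induction ht using AddSubmonoid.closure_induction with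
    | mem t ht =>
      refine ⟨hm t ht, fun i => ?_⟩
      obtain ⟨t₁, h1, t₂, h2, e⟩ := hN i t ht
      rw [e]
      exact add_mem (AddSubmonoid.subset_closure h1) (AddSubmonoid.subset_closure h2)
    | zero => exact ⟨⟨0, zero_mem _, by simp⟩, fun i => by rw [d_zero (hd i)]; exact zero_mem _⟩
    | add s t _ _ k1 k2 =>
      obtain ⟨⟨a, ha, ea⟩, k1⟩ := k1
      obtain ⟨⟨b, hb, eb⟩, k2⟩ := k2
      exact ⟨⟨a + b, add_mem ha hb, by rw [map_add, map_add, ea, eb]⟩,
        fun i => by rw [(hd i).add]; exact add_mem (k1 i) (k2 i)⟩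
  have rs : ∀ (k : ℕ) t a, t - F.ι a ∈ F.J (k + 1) → F.ρ t = φ a := fun k t a h => by
    have := (F.ker _).2 (F.anti (by omega : 1 ≤ k + 1) h)
    rwa [map_sub, F.res, sub_eq_zero] at this
  have main : ∀ k : ℕ, ∀ t ∈ AddSubmonoid.closure N, ∀ a, t - F.ι a ∈ F.J k →
      a ∈ maximalIdeal L ^ k := by
    intro k
    induction k with
    | zero => intro t _ a _; simp
    | succ k ih =>
      intro t ht a h
      rcases Nat.eq_zero_or_pos k with rfl | k0
      · obtain ⟨b, hb, e⟩ := (cl t ht).1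
        have := kerm (a - b) (by rw [map_sub, ← e, ← rs 0 t a h, sub_self])
        simpa using add_mem this hb
      · have h1 := ih t ht a (F.anti (Nat.le_succ k) h)
        have h2 : ∀ i, D i a ∈ maximalIdeal L ^ k := fun i => ih _ ((cl t ht).2 i) _ (by
          rw [← hι, ← d_sub (hd i)]; exact hJ i k _ h)
        have h3 := sub_mem (eu_mem hx h2) (eu_pow hx k a h1)
        rw [sub_sub_cancel] at h3
        exact (Ideal.unit_mul_mem_iff_mem _ (bs.chr k k0)).1 h3
  have ap : ∀ k : ℕ, ∃ a ∈ maximalIdeal L ^ k, F.ρ t = φ a := fun k => by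
    obtain ⟨a, j, h⟩ := hT t ht (k + 1)
    rw [map_one, one_pow, one_mul] at h
    exact ⟨a, Ideal.pow_le_pow_right (Nat.le_succ k)
      (main _ t (AddSubmonoid.subset_closure ht) a h), rs k t a h⟩
  obtain ⟨a, -, e⟩ := ap 0
  have := bs.noe
  have np : RingHom.ker φ ≠ ⊤ := RingHom.ker_ne_top φ
  have : Nontrivial (L ⧸ RingHom.ker φ) := Ideal.Quotient.nontrivial_iff.2 np
  have : IsLocalRing (L ⧸ RingHom.ker φ) :=
    .of_surjective' (Ideal.Quotient.mk _) Ideal.Quotient.mk_surjective
  have kr := Ideal.iInf_pow_eq_bot_of_isLocalRing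
    ((maximalIdeal L).map (Ideal.Quotient.mk (RingHom.ker φ))) (by
      rw [Ne, Ideal.map_eq_top_iff_of_ker_le _ (by
        rw [Ideal.mk_ker]; exact fun a ha => kerm a ha) (fun b => by
          obtain ⟨a, rfl⟩ := Ideal.Quotient.mk_surjective b
          exact RingHom.isIntegralElem_map _)]
      exact (maximalIdeal.isMaximal L).ne_top)
  have z : Ideal.Quotient.mk (RingHom.ker φ) a ∈
      ⨅ k : ℕ, ((maximalIdeal L).map (Ideal.Quotient.mk (RingHom.ker φ))) ^ k := by
    refine Ideal.mem_iInf.2 fun k => ?_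
    obtain ⟨b, hb, e'⟩ := ap k
    have : Ideal.Quotient.mk (RingHom.ker φ) a = Ideal.Quotient.mk _ b :=
      Ideal.Quotient.eq.2 (by rw [RingHom.mem_ker, map_sub, ← e, ← e', sub_self])
    rw [this, ← Ideal.map_pow]
    exact Ideal.mem_map_of_mem _ hb
  rw [kr, Ideal.mem_bot, Ideal.Quotient.eq_zero_iff_mem, RingHom.mem_ker] at z
  rw [e, z]

end Vale.Agent.P283R.Pu
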