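import Vale.Agent.P283R.Pu.Su
import Vale.Agent.P283R.Tp.Ufd
import Vale.Agent.P283R.Mi.Topu

/-!
# P283R, block PU: local equations in codimension two, the top of the chain
-/

set_option linter.all false

open Set
open Vale.Agent.P297Z

noncomputable section

namespace Vale.Agent.P283R.Pu

open Vale.Agent.P287D Vale.Agent.P283R.Uf Vale.Agent.P283R.Tq

theorem R2.reg {A : Type} [CommRing A] (h : R2 A) (p : Ideal A) [p.IsPrime] (hp : p.height ≤ 2) :
    IsRegularRing (Localization.AtPrime p) := by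
  have := h p hp
  refine ⟨fun P _ => ?_⟩
  have le : P.comap (algebraMap A (Localization.AtPrime p)) ≤ p := fun a ha => by_contra fun n =>
    Ideal.IsPrime.ne_top' (P.eq_top_of_isUnit_mem ha
      (IsLocalization.map_units (Localization.AtPrime p) (⟨a, n⟩ : p.primeCompl)))
  have := h _ ((Ideal.height_mono le).trans hp)
  exact IsRegularLocalRing.of_ringEquiv
    (IsLocalization.localizationLocalizationAtPrimeIsoLocalization p.primeCompl P).toRingEquiv

/-- factorial local rings -/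
theorem eqn_of_ufd {N Q : ℕ} {F : Type} [Field F] [Algebra ℂ F] {S : Subalgebra ℂ F} {p : Ideal S}
    [p.IsPrime] [UniqueFactorizationMonoid (Localization.AtPrime p)] {y : Fin N → F} {m : ℕ}
    {g : F} (hS : Aff N S) (hy : Frm y) (hb : ∀ R, PDat S p R → ∃ b : ℕ, (1 - ld y m g R) * Q = b) :
    ∃ h, Eqn Q S p y m g h := by
  obtain ⟨j, h⟩ := exists_is S p
  obtain ⟨z, z0, hz⟩ := kap_zero hS hy
  obtain ⟨w, w0, hw⟩ : ∃ w : S, w ≠ 0 ∧ ∀ R, PDat S p R → R.ord (w : F) = 0 → R.ord g = 0 := by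
    obtain ⟨s, t, rfl⟩ := hS.fr g
    by_cases e : (s : F) / t = 0
    · exact ⟨1, one_ne_zero, fun R _ _ => by simp [e]⟩
    obtain ⟨s0, t0⟩ := div_ne_zero_iff.1 e
    refine ⟨s * t, fun n => mul_ne_zero s0 t0 (congrArg Subtype.val n), fun R ⟨_, _, k, _⟩ e' => ?_⟩
    have a := Pl.ord_nonneg_of_mem _ (k s).1
    have b := Pl.ord_nonneg_of_mem _ (k t).1
    rw [MulMemClass.coe_mul, Pl.ord_mul _ s0 t0] at e'
    rw [Pl.ord_div _ s0 t0]
    omega
  have z1 : (z : F) ≠ 0 := fun n => z0 (Subtype.ext n)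
  have w1 : (w : F) ≠ 0 := fun n => w0 (Subtype.ext n)
  obtain ⟨v, hv⟩ := h.ex (z * w)
  choose! b hb using hb
  obtain ⟨a, a0, ha⟩ := h.eqn hS (z := v) (fun n => mul_ne_zero z1 w1 (by
    rw [← MulMemClass.coe_mul, ← hv, n, map_zero])) b fun R hR e => by
      obtain ⟨q, -, k1, k2⟩ := id hR
      have a1 := Pl.ord_nonneg_of_mem _ (k1 z).1
      have a2 := Pl.ord_nonneg_of_mem _ (k1 w).1
      rw [hv, MulMemClass.coe_mul, Pl.ord_mul _ z1 w1] at e
      have := hb R hR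
      rw [ld, hz q R k1 k2 (by omega), hw R hR (by omega)] at this
      simpa using this.symm
  exact ⟨j a, h.mem a, h.ne a0, fun R hR => by rw [hb R hR, ha R hR, Int.cast_natCast]⟩

/-- **UF2** -/
theorem uf2 : UF2 := fun N Q F _ _ S p y m g hS r hp h2 hy hb => by
  have := r.reg p h2
  have := P299.R.ufd (Localization.AtPrime p)
  exact eqn_of_ufd hS hy hb

/-- **TOPR** -/
theorem topr : TOPR := by
  intro hram ha hnt hone hquo hquo2 hfre pur uf d Q hd hQ ε hε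
  obtain ⟨J, n₀, hn₀, ha⟩ := ha d Q ε hQ hε
  have hn : 2 ≤ 2 * (n₀ * Q) := Nat.le_mul_of_pos_right _ (Nat.mul_pos hn₀ hQ)
  refine ⟨2 * (n₀ * Q) * J.factorial, Nat.mul_pos (by omega) J.factorial_pos, ?_⟩
  intro K L S _ _ _ _ _ _ _ _ c q f G A χ m g r2 hK hq hm hg h1 h2
  obtain ⟨G₀, hG, -, dn, up⟩ := hquo d K L S c q f G A hK hq
  obtain ⟨F', _, _, G', S', π, f', hl⟩ := hquo2 d K L S c q f G A G₀ hG.aff.ff hq dn up
  obtain ⟨y, D, hy, hcn⟩ := Cb.exists_cn hK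
  have hP := pr hram hK hG ⟨D, hy⟩ hm hg
  refine core hram hnt hone hfre hK hG ⟨D, hy⟩ hcn hm hg hn fun p hp pp => ?_
  obtain ⟨r, hr, r1, r3⟩ := Mi.exists_max hfre hG hp pp
  have int : ∀ p' ≤ r, ∀ R, PDat q.range p' R → ∃ b : ℕ,
      (1 - ld (fun i => algebraMap K L (y i)) m (algebraMap K L g) R) * Q = b := fun p' e R hR => by
    obtain ⟨P, -, e1, e2, -, e3⟩ := ld_pd hram hfre hK hG ⟨D, hy⟩ hcn m g (W.mono hr e) hR
    obtain ⟨k, hk⟩ := h2 P e1 e2
    exact ⟨k, by rw [e3]; linarith⟩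
  obtain ⟨h, hh⟩ := pur d c Q L F' G₀ q.range G' S' π f' r _ m _ hP hl r1.isPrime (int r le_rfl)
    fun p' e a b => uf d Q L q.range p' _ m _ hG.aff r2 a b hP.fr (int p' e)
  exact ha _ (by omega) ⟨2 * Q, by ring⟩ ⟨2 * n₀, by ring⟩ c L F' G₀ q.range G' S' π f' p r _ m _ h
    hP hl pp r1 r3 hh (fun p' e => hyp hram hK hG ⟨D, hy⟩ hcn hε h1 (W.mono hr e))
    (ld_pos hram hK hG ⟨D, hy⟩ hcn hε h1 hr)

end Vale.Agent.P283R.Pu
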