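import Vale.Agent.P283R.Pu.St
import Vale.Agent.P283R.Mi.St
import Vale.Agent.P283R.StmE

/-!
# P283R, block PU: the statements on the tier and the text
-/

open Set

noncomputable section

namespace Vale.Agent.P283R.Pu

open Vale.Agent.P287D

/-- regular in codimension two -/
def R2 (A : Type) [CommRing A] : Prop :=
  ∀ (p : Ideal A) [p.IsPrime], p.height ≤ 2 → IsRegularLocalRing (Localization.AtPrime p)

/-- **PUR**: a local equation in codimension two gives a local equation -/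
def PUR : Prop := ∀ (N c Q : ℕ) (F F' : Type) [Field F] [Algebra ℂ F] [Field F'] [Algebra ℂ F']
  (G : Subgroup (F ≃ₐ[ℂ] F)) (S : Subalgebra ℂ F) (G' : Subgroup (F' ≃ₐ[ℂ] F'))
  (S' : Subalgebra ℂ F') (π : S' →ₐ[ℂ] S) (f : Fin c → S') (q : Ideal S) (y : Fin N → F) (m : ℕ)
  (g : F), Pr N G S y m g → Lci N G S G' S' π f → q.IsPrime →
    (∀ R, PDat S q R → ∃ b : ℕ, (1 - ld y m g R) * Q = b) →
    (∀ p ≤ q, p.IsPrime → p.height ≤ 2 → ∃ h, Eqn Q S p y m g h) → ∃ h, Eqn Q S q y m g h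

/-- **UF2**: local equations in codimension two -/
def UF2 : Prop := ∀ (N Q : ℕ) (F : Type) [Field F] [Algebra ℂ F] (S : Subalgebra ℂ F) (p : Ideal S)
  (y : Fin N → F) (m : ℕ) (g : F), Aff N S → R2 S → p.IsPrime → p.height ≤ 2 → Frm y →
    (∀ R, PDat S p R → ∃ b : ℕ, (1 - ld y m g R) * Q = b) → ∃ h, Eqn Q S p y m g h

/-- **the tier statement**: `Qa` for complete intersections which are regular in codimension two -/
def Qp : Prop := ∀ (d Q : ℕ), 1 ≤ d → 1 ≤ Q → ∀ ε : ℝ, 0 < ε →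
  ∃ N : ℕ, 1 ≤ N ∧ ∀ (K L S : Type) [Field K] [Algebra ℂ K] [Field L] [Algebra ℂ L] [Algebra K L]
    [IsScalarTower ℂ K L] [CommRing S] [Algebra ℂ S] (c : ℕ) (q : S →ₐ[ℂ] L) (f : Fin c → S)
    (G : Subgroup (S ≃ₐ[ℂ] S)) (A : Subalgebra ℂ K) (χ : A →ₐ[ℂ] ℂ) (m : ℕ) (g : K),
    R2 q.range → FF K d → Quo q f G A → 0 < m → g ≠ 0 →
    (∀ P, Thr A χ P → ε ≤ 1 + dsc d ((m : ℝ)⁻¹ • dv g) P) →
    (∀ P, Thr A χ P → Prm A P → ∃ k : ℕ, Q * dsc d ((m : ℝ)⁻¹ • dv g) P = -k) →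
    ∃ φ : K, φ ≠ 0 ∧ ∀ P, Thr A χ P →
      (Prm A P → (m : ℝ)⁻¹ * dv g P ≤ (N : ℝ)⁻¹ * dv φ P) ∧ -1 < dsc d ((N : ℝ)⁻¹ • dv φ) P

/-- **PURR** -/
def PURR : Prop := PU0 → CM → EIG → DER → HRT → H.RES → PUR

/-- **TOPR** -/
def TOPR : Prop := RAM → Mi.ACu → NT → ONE → QUO → QUO2 → FRE → PUR → UF2 → Qp

section text

open CategoryTheory AlgebraicGeometry
open Vale.Agent.P289 Vale.Agent.P283M.Stm Vale.Agent.P283M.Stm.Var Vale.Agent.P283R.Stm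

/-- An affine neighbourhood of `z` is a quotient `Y / G`, `Y` regular in codimension two. -/
def LciqR (Z : Var) (z : Pt Z.X) : Prop :=
  ∃ (c : ℕ) (U : Z.X.Opens) (S : Type) (_ : CommRing S) (_ : Algebra ℂ S) (I : Ideal S)
    (G : Subgroup (S ≃ₐ[ℂ] S)) (i : Z.K →ₐ[ℂ] FractionRing (S ⧸ I)),
    IsAffineOpen U ∧ z ∈ U ∧ IsQuot c {a : Z.K | ∀ x ∈ U, RegAt a x} I G i ∧ R2 (S ⧸ I)

/-- The same étale locally. -/
def EtR (Z : Var) (z : Pt Z.X) : Prop :=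
  ∃ (W : Var) (e : W.X ⟶ Z.X) (w : Pt W.X), EtNb e w z ∧ LciqR W w

/-- `Q` for the class `EtR`. -/
def QR : Prop :=
  ∀ d : ℕ, 1 ≤ d → ∀ ε : ℝ, 0 < ε → ∀ R : Finset ℚ, (∀ r ∈ R, 0 ≤ r ∧ r ≤ 1) →
    ∃ n : ℕ, 1 ≤ n ∧ ∀ (X Z : Var) (f : X.X ⟶ Z.X) (ω : DForm ℂ X.K d) (B : X.QDiv)
      (z : Pt Z.X), dimension X.str = d → ω.Nonzero → Pair (ε ≤ ·) ⊤ ω B →
      (∀ y, B y ≠ 0 → B y ∈ R) → Contraction f → Birational f →
      (∃ m g, 0 < m ∧ ∀ x : Pt X.X, x.map f = z → LocalEq (logCan ω B) m g x) →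
      IsClosed ({z} : Set (Pt Z.X)) → EtR Z z → HasKltComplement f ω B n z

end text

/-- **GLR** -/
def GLR : Prop := Qp → QR

end Vale.Agent.P283R.Pu
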