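import Vale.Agent.P283R.Pu.Cl
import Vale.Agent.P283R.Pu.Su
import Vale.Agent.P283R.Sl.Un

/-!
# P283R, block PU: the short words
-/

open CategoryTheory AlgebraicGeometry

namespace Vale.Agent.P283R.Sl

open Var

theorem LciqReg.o {Z : Var} {z : Pt Z.X} (h : LciqReg Z z) : Pu.EtR Z.o z := by
  obtain ⟨c, W, e, w, U, S, _, _, a, b, k, I, G, i, h, r⟩ := h
  exact ⟨W.o, e, w, a, c, U, S, _, _, I, G, i, b, k, h.o, r⟩

theorem on_reg (h : Pu.QR) : On fun _ _ Z f ω B z => Crepant f ω B z ∧ LciqReg Z z := by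
  intro d hd ε hε R hR
  obtain ⟨n, hn, H⟩ := h d hd ε hε R hR
  exact ⟨n, hn, fun X Z f ω B z a b c e s t u => (has_iff f ω B n z).2
    (H X.o Z.o f ω B z a b ((pair_iff _ _ ω B).1 c) e s u.1.1 u.1.2 t u.2.o)⟩

end Vale.Agent.P283R.Sl
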