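import Vale.Agent.P283R.Pu.Fin
import Vale.Agent.P283R.Pu.Mlr
import Vale.Agent.P283R.Pu.Gam
import Vale.Agent.P283R.Pu.Gr
import Vale.Agent.P283R.Pu.Hart
import Vale.Agent.P283R.Pu.Hf
import Vale.Agent.P283R.Pu.Stab
import Vale.Agent.P283R.Pu.Uf2
import Vale.Agent.P283R.Pu.Cm
import Vale.Agent.P283R.Pu.Cpl
import Vale.Agent.P283R.Pu.Glr
import Vale.Agent.P283R.Pu.Pr77
import Vale.Agent.P283R.Pu.Un
import Vale.Agent.P283R.Mi.Fin

/-!
# P283R, block PU: the assembly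
-/

namespace Vale.Agent.P283R.Pu

theorem pu0 : PU0 := fin cpl ini gam hf (mlr gr) hart stab

theorem pur : PUR := purr77 pu0 cm eig der hrt H.res

theorem qp : Qp := topr ram Mi.acu nt Fin.one quo quo2 fre pur uf2

theorem qr : QR := glr qp

theorem on : Sl.On fun _ _ Z f ω B z => Sl.Crepant f ω B z ∧ Sl.LciqReg Z z := Sl.on_reg qr

end Vale.Agent.P283R.Pu
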