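import Mathlib.RingTheory.RegularLocalRing.Defs
import Vale.Agent.P283R.Sl.Cl

/-!
# Bounded klt complements: complete intersections which are regular in codimension two
-/

open CategoryTheory AlgebraicGeometry

namespace Vale.Agent.P283R.Sl

open Var

/-- The local rings of `A` at the primes of height at most two are regular. -/
def RegCodimTwo (A : Type) [CommRing A] : Prop :=
  ∀ (p : Ideal A) [p.IsPrime], p.height ≤ 2 → IsRegularLocalRing (Localization.AtPrime p)

/-- `A` is the ring of functions of a quotient `Y / G` with `Y` in `Spec S` regular in codimension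
two. -/
def QuotReg (c : ℕ) {K : Type} [Field K] [Algebra ℂ K] (A : Set K) (S : Type) [CommRing S]
    [Algebra ℂ S] : Prop :=
  ∃ I G i, IsQuot c (S := S) A I G i ∧ RegCodimTwo (S ⧸ I)

/-- Étale locally at `z`, `Z` is a quotient `Y / G` of a complete intersection `Y` which is regular
in codimension two. -/
def LciqReg (Z : Var) (z : Pt Z.X) : Prop :=
  ∃ (c : ℕ) (W : Var) (e : W.X ⟶ Z.X) (w : Pt W.X) (U : W.X.Opens) (S : Type) (_ : CommRing S)
    (_ : Algebra ℂ S), EtNb e w z ∧ IsAffineOpen U ∧ w.In U ∧ QuotReg c (regOn U) S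

end Vale.Agent.P283R.Sl
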