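import Vale.Agent.P283R.Pu.Ini

/-!
# P283R, block PU: the assembly
-/

set_option linter.all false

open Set MvPolynomial

noncomputable section

namespace Vale.Agent.P283R.Pu

theorem fin : FIN := by
  intro cpl ini gam hf ml hart stab L K _ _ c φ f h _ n x D κ _ w u a r eu dt c3
  obtain ⟨E, _, ⟨F⟩⟩ := cpl L K c φ f h
  have i := ini L K c φ f h E F
  obtain ⟨γ, α, g⟩ := gam L K c φ f h E F i κ w u a r dt
  obtain ⟨ht, hh⟩ := hf L K c φ f h κ w u a r dt c3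
  obtain ⟨s₀, s0, hs₀⟩ := ml L K c φ f h E F i κ w u a r γ α dt g hh
  choose d d1 d2 d3 using fun j => F.der (D j) (eu.dr j)
  choose ε e1 ε' e2 e3 e4 using g.eps
  obtain ⟨r, rfl⟩ := Nat.exists_eq_succ_of_ne_zero dt.pos.ne'
  obtain ⟨ν, hν⟩ := (h.chr _ dt.pos).exists_right_inv
  have hν' : ((r + 1 : ℕ) : E) * F.ι ν = 1 := by simpa using congrArg F.ι hν
  obtain ⟨β, hβ⟩ := (F.unit α (by rw [g.ra]; exact dt.a0)).exists_right_inv
  have dT : ∀ j k, ∀ e ∈ F.T (w k), d j e ∈ F.T (w k) := fun j k =>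
    i.dT _ _ _ (d1 j) (d2 j) (d3 j)
  have key : ∀ j k, d j (γ k) = γ k * (F.ι ν * β * d j α + F.ι ν * ε' k * d j (ε k)) := fun j k => by
    have k1 := (d1 j).pow (γ k) r
    rw [e4, (d1 j).mul] at k1
    have k2 : γ k * γ k ^ r = α * ε k := by rw [← pow_succ', e4]
    linear_combination (-(γ k * F.ι ν * β * ε' k)) * k1
      - (F.ι ν * β * ε' k * ((r + 1 : ℕ) : E) * d j (γ k)) * k2
      - (d j (γ k) * α * β * ε k * ε' k) * hν' - (d j (γ k) * ε k * ε' k) * hβ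
      - d j (γ k) * e3 k + (γ k * F.ι ν * ε' k * d j (ε k)) * hβ
      + (γ k * F.ι ν * β * d j α) * e3 k
  let N : Set E := {t | ∃ s s', (∀ k, γ k * s ∈ F.T (w k)) ∧
    (∀ k, ∃ t ∈ F.T (w k), s' = γ k * t) ∧ t = s * s'}
  have N1 : ∀ t ∈ N, t ∈ F.T 1 := by
    rintro _ ⟨s, s', h1, h2, rfl⟩
    refine hart L K c φ f h E F i κ w dt.w0 ht _ fun k => ?_
    obtain ⟨t, h3, rfl⟩ := h2 k
    convert mul_mem (h1 k) h3 using 1
    ring
  have μ : ∀ j k, F.ι ν * ε' k * d j (ε k) ∈ F.T (w k) := fun j k =>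
    mul_mem (mul_mem (i.iT _ _) (e2 k)) (dT j k _ (e1 k))
  have N2 : ∀ j, ∀ t ∈ N, ∃ t₁ ∈ N, ∃ t₂ ∈ N, d j t = t₁ + t₂ := by
    rintro j _ ⟨s, s', h1, h2, rfl⟩
    refine ⟨_, ⟨d j s + F.ι ν * β * d j α * s, s', fun k => ?_, h2, rfl⟩, _,
      ⟨s, d j s' - F.ι ν * β * d j α * s', h1, fun k => ?_, rfl⟩, by rw [(d1 j).mul]; ring⟩
    · convert sub_mem (dT j k _ (h1 k)) (mul_mem (μ j k) (h1 k)) using 1
      rw [(d1 j).mul, key]; ring
    · obtain ⟨t, h3, rfl⟩ := h2 k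
      exact ⟨_, add_mem (dT j k _ h3) (mul_mem (μ j k) h3), by rw [(d1 j).mul, key]; ring⟩
  have N3 : ¬ ∀ t ∈ N, ∃ b ∈ IsLocalRing.maximalIdeal L, F.ρ t = φ b := fun k => by
    have := stab L K c φ f h E F n x D d N eu d1 d2 d3 N1 k N2 (s₀ * (α * s₀ ^ r))
      ⟨s₀, _, hs₀, fun k => ⟨ε' k * (γ k * s₀) ^ r, mul_mem (e2 k) (pow_mem (hs₀ k) _), by
        have k2 : γ k * γ k ^ r = α * ε k := by rw [← pow_succ', e4]
        rw [mul_pow]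
        linear_combination (-(ε' k * s₀ ^ r)) * k2 - (α * s₀ ^ r) * e3 k⟩, rfl⟩
    rw [map_mul, map_mul, map_pow, g.ra] at this
    exact mul_ne_zero s0 (mul_ne_zero dt.a0 (pow_ne_zero _ s0)) this
  push Not at N3
  obtain ⟨t, hN, ht⟩ := N3
  obtain ⟨b, j, hb⟩ := (i.rT 1 (by simp) _).2 ⟨t, N1 t hN, rfl⟩
  rw [map_one, one_pow, one_mul] at hb
  obtain ⟨b', hb'⟩ := (IsLocalRing.notMem_maximalIdeal.1 fun k => ht b k hb).exists_right_inv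
  obtain ⟨s, s', h1, h2, rfl⟩ := hN
  have one : F.ρ (s * s') * φ b' = 1 := by rw [hb, ← map_mul, hb', map_one]
  refine ⟨F.ρ s, fun e => by simp [e] at one, fun k => ⟨(i.rT _ (dt.w0 k) _).2
    ⟨_, h1 k, by rw [map_mul, g.rg]⟩, ?_⟩⟩
  obtain ⟨t, h3, rfl⟩ := h2 k
  refine (i.rT _ (dt.w0 k) _).2 ⟨t * F.ι b', mul_mem h3 (i.iT _ _), eq_inv_of_mul_eq_one_right ?_⟩
  rw [map_mul, map_mul, g.rg] at one
  rw [map_mul, F.res]
  linear_combination one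

end Vale.Agent.P283R.Pu
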