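import Vale.Agent.P283R.Pu.Su
import Vale.Agent.P283R.Tp.Hrt
import Vale.Agent.P283R.Tp.Quo2
import Vale.Agent.P299.R.Smooth

/-!
# P283R, block PU: from the algebraic purity theorem to local equations
-/

open Set
open Vale.Agent.P297Z

noncomputable section

namespace Vale.Agent.P283R.Pu

open Vale.Agent.P287D

namespace Pq

section loc

variable {T F : Type} [CommRing T] [Field F] (p : Ideal T) [p.IsPrime]

theorem rep (b : Localization.AtPrime p) :
    ∃ s t, t ∉ p ∧ b * algebraMap T _ t = algebraMap T _ s := by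
  obtain ⟨⟨s, t⟩, e⟩ := IsLocalization.surj p.primeCompl b
  exact ⟨s, t, t.2, e⟩

theorem un {t : T} (h : t ∉ p) : IsUnit (algebraMap T (Localization.AtPrime p) t) :=
  IsLocalization.map_units _ (⟨t, h⟩ : p.primeCompl)

theorem ex_lift (ψ : T →+* F) (h : ∀ t ∉ p, ψ t ≠ 0) : ∃ j : Localization.AtPrime p →+* F,
    (∀ a, j (algebraMap T _ a) = ψ a) ∧
    (∀ b, ∃ s t, t ∉ p ∧ b * algebraMap T _ t = algebraMap T _ s ∧ j b = ψ s / ψ t) ∧
    ∀ s t, t ∉ p → ∃ b, j b = ψ s / ψ t := by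
  have u : ∀ t : p.primeCompl, IsUnit (ψ t) := fun t => (h t t.2).isUnit
  have e := IsLocalization.lift_eq (S := Localization.AtPrime p) u
  refine ⟨IsLocalization.lift u, e, fun b => ?_, fun s t ht => ?_⟩
  · obtain ⟨s, t, ht, k⟩ := rep p b
    exact ⟨s, t, ht, k, by rw [eq_div_iff (h t ht), ← e, ← e, ← map_mul, k]⟩
  · obtain ⟨v, hv⟩ := (un p ht).exists_right_inv
    refine ⟨algebraMap T _ s * v, ?_⟩
    rw [eq_div_iff (h t ht), ← e t, ← map_mul, mul_assoc, mul_comm v, hv, mul_one, e]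

end loc

variable {F F' : Type} [Field F] [Algebra ℂ F] [Field F'] [Algebra ℂ F'] {N c : ℕ}
  {S : Subalgebra ℂ F} {S' : Subalgebra ℂ F'} {q : Ideal S} {R : Pl F}

theorem td_aff (h : Aff N S) : Dim.td ℂ S = N := by
  have := h.isFrac
  have := h.ft
  have b := (Qw.trd (S := S) F).symm.trans h.ff.trdeg
  rwa [Dim.trdeg_eq_td, Nat.cast_inj] at b

theorem ht_comap (h : Aff N S) (h' : Aff (N + c) S') {π : S' →ₐ[ℂ] S} (hs : Function.Surjective π)
    (p : Ideal S) [p.IsPrime] : (p.comap π).height = p.height + c := by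
  have := h.ft
  have := h'.ft
  have := Ideal.comap_isPrime π p
  have a := Dim.height_add_td (k := ℂ) (p.comap π)
  have b := Dim.height_add_td (k := ℂ) p
  have e : p.comap π = RingHom.ker ((Ideal.Quotient.mkₐ ℂ p).comp π) :=
    Ideal.ext fun a => (Ideal.Quotient.eq_zero_iff_mem (a := π a)).symm
  have d : Dim.td ℂ (S' ⧸ p.comap π) = Dim.td ℂ (S ⧸ p) :=
    congrArg _ ((Ideal.quotientEquivAlgOfEq ℂ e).trans (Ideal.quotientKerAlgEquivOfSurjective
      ((Ideal.Quotient.mkₐ_surjective ℂ p).comp hs))).trdeg_eq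
  rw [d, td_aff h', Nat.cast_add, ← td_aff h, ← b, add_right_comm] at a
  exact WithTop.add_right_cancel (ENat.natCast_ne_top _) a

theorem ht_cen (h : Aff N S) {p : Ideal S} (k : Cen S p R) (k' : ∀ a ∈ R.ring, a ∈ Lo S p) :
    p.height ≤ 2 := by
  have := h.noeth
  by_cases e : p = ⊥
  · rw [e, Ideal.height_bot]
    exact zero_le
  obtain ⟨s, hs, s0⟩ := Submodule.exists_mem_ne_zero_of_ne_bot e
  have s1 : (s : F) ≠ 0 := fun n => s0 (Subtype.ext n)
  exact (Ideal.height_le_one_of_isPrincipal_of_mem_minimalPrimes _ p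
    (Hr.pd_min k k' s1 (((Hr.cen_iff k s).1 hs).resolve_left s1).ne')).trans one_le_two

theorem nn (h : PDat S q R) (s : S) : 0 ≤ R.ord (s : F) :=
  let ⟨_, _, k, _⟩ := h
  Pl.ord_nonneg_of_mem _ (k s).1

theorem lo_nn (h : PDat S q R) {a : F} (ha : a ∈ Lo S q) : 0 ≤ R.ord a := by
  obtain ⟨p, le, k, -⟩ := h
  obtain ⟨s, t, ht, e⟩ := ha
  exact Pl.ord_nonneg_of_mem _ (Hr.cen_lo k ⟨s, t, fun n => ht (le n), e⟩)

/-- poles along the zeros of `w` only -/
theorem clear (hrt : HRT) (h : Aff N S) (hn : IsIntegrallyClosed S) (hq : q.IsPrime) {x : F} {w : S}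
    (w0 : (w : F) ≠ 0) (k : ∀ R, PDat S q R → R.ord (w : F) = 0 → 0 ≤ R.ord x) :
    ∃ n : ℕ, (w : F) ^ n * x ∈ Lo S q := by
  obtain ⟨h1, -, h3, -⟩ := hrt N F S h hn
  by_cases x0 : x = 0
  · exact ⟨0, h3 q hq _ fun R _ => by rw [x0, mul_zero]; exact zero_mem _⟩
  obtain ⟨n, hn⟩ := ((h1 x).image fun R => (-R.ord x).toNat).bddAbove
  refine ⟨n, h3 q hq _ fun R hR =>
    (Pl.ord_nonneg_iff _ (mul_ne_zero (pow_ne_zero _ w0) x0)).1 ?_⟩
  rw [Pl.ord_mul _ (pow_ne_zero _ w0) x0, Pl.ord_pow]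
  have a := nn hR w
  by_cases e : R.ord (w : F) = 0
  · rw [e, mul_zero, zero_add]
    exact k R hR e
  by_cases e' : R.ord x = 0
  · rw [e', add_zero]
    positivity
  have b : (-R.ord x).toNat ≤ n :=
    hn ⟨R, ⟨hR.imp fun _ y => y.2, e'⟩, rfl⟩
  have d : (n : ℤ) * 1 ≤ n * R.ord (w : F) := mul_le_mul_of_nonneg_left (by omega) (by positivity)
  omega

/-- a local equation at `p` is a local equation near `p` -/
theorem near (hrt : HRT) (h : Aff N S) (hn : IsIntegrallyClosed S) {p : Ideal S} (hp : p.IsPrime)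
    (β : Pl F → ℝ) {a u : F} (ha : ∀ R, PDat S q R → R.ord a = 0 → β R = 0)
    (k : ∀ R, PDat S p R → β R = R.ord u) :
    ∃ w : S, w ∉ p ∧ ∀ R, PDat S q R → R.ord (w : F) = 0 → β R = R.ord u := by
  classical
  obtain ⟨h1, -⟩ := hrt N F S h hn
  have fin : {R | PDat S q R ∧ β R ≠ R.ord u}.Finite :=
    ((h1 a).union (h1 u)).subset fun R ⟨x, y⟩ => by
      have z : PD S R := x.imp fun _ y => y.2
      by_contra n
      have n1 : R.ord a = 0 := by_contra fun e => n (.inl ⟨z, e⟩)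
      have n2 : R.ord u = 0 := by_contra fun e => n (.inr ⟨z, e⟩)
      exact y (by rw [ha R x n1, n2, Int.cast_zero])
  have ex : ∀ R : Pl F, ∃ s : S, s ∉ p ∧ (PDat S q R ∧ β R ≠ R.ord u → 0 < R.ord (s : F)) := by
    intro R
    by_cases e : PDat S q R ∧ β R ≠ R.ord u
    · obtain ⟨⟨r, -, x, y⟩, z⟩ := e
      obtain ⟨s, s1, s2⟩ := SetLike.not_le_iff_exists.1 fun le : r ≤ p => z (k R ⟨r, le, x, y⟩)
      exact ⟨s, s2, fun _ => ((Hr.cen_iff x s).1 s1).resolve_left (Hr.ne_of_notMem s2)⟩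
    · exact ⟨1, (Ideal.ne_top_iff_one p).1 hp.ne_top, fun x => (e x).elim⟩
  choose s s1 s2 using ex
  have nm : ∀ U : Finset (Pl F), ∏ R ∈ U, s R ∉ p := fun U n => by
    obtain ⟨R, -, x⟩ := Ideal.IsPrime.prod_mem_iff.1 n
    exact s1 R x
  refine ⟨∏ R ∈ fin.toFinset, s R, nm _, fun R hR e => by_contra fun n => ?_⟩
  rw [← Finset.mul_prod_erase _ _ (fin.mem_toFinset.2 ⟨hR, n⟩), MulMemClass.coe_mul,
    Pl.ord_mul _ (Hr.ne_of_notMem (s1 R)) (Hr.ne_of_notMem (nm _))] at e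
  have := s2 R ⟨hR, n⟩
  have := nn hR (∏ R ∈ fin.toFinset.erase R, s R)
  omega

/-- parameters with dual derivations -/
theorem eu {k r : ℕ} {p : Ideal S} [p.IsPrime] {x : Fin k → F} {t : Fin r → S} (par : Par S p x t)
    {D' : Fin (k + r) → Derivation ℂ F F}
    (fr : P285N.Brep.Fr (Fin.append x fun i => (t i : F)) D')
    (pre : ∀ j, ∀ a ∈ Lo S p, D' j a ∈ Lo S p) :
    ∃ (x : Fin k → Localization.AtPrime p) (D : Fin k → _ → _), Eu x D := by
  obtain ⟨ψ, ψ1, ψ2, ψ3⟩ := ex_lift p S.val.toRingHom fun t ht => Hr.ne_of_notMem ht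
  replace ψ1 : ∀ a : S, ψ (algebraMap S _ a) = a := ψ1
  have ψ4 : ∀ b, ψ b ∈ Lo S p := fun b =>
    let ⟨s, t, ht, _, e⟩ := ψ2 b
    ⟨s, t, ht, e⟩
  have ψ5 : ∀ a ∈ Lo S p, ∃ b, ψ b = a := by
    rintro _ ⟨s, t, ht, rfl⟩
    exact ψ3 s t ht
  have inj : Function.Injective ψ := (injective_iff_map_eq_zero ψ).2 fun b hb => by
    obtain ⟨s, t, ht, e, e'⟩ := ψ2 b
    have s0 : s = 0 := Subtype.ext
      ((div_eq_zero_iff.1 (e'.symm.trans hb)).resolve_right (Hr.ne_of_notMem ht))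
    rw [s0, map_zero] at e
    exact (un _ ht).mul_left_eq_zero.1 e
  choose xs xs1 xs2 using par.mem
  choose D hD using fun (i : Fin k) b => ψ5 _ (pre (Fin.castAdd r i) _ (ψ4 b))
  refine ⟨fun i => algebraMap S _ (xs i), D, le_antisymm ?_ (Ideal.span_le.2 ?_),
    fun i => ⟨fun u v => inj ?_, fun u v => inj ?_⟩, fun i i' => inj ?_⟩
  · rw [← IsLocalization.AtPrime.map_eq_maximalIdeal p (Localization.AtPrime p),
      Ideal.map_le_iff_le_comap]
    intro a ha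
    obtain ⟨cc, c1, c2⟩ := par.gen a ha
    choose b hb using fun j => ψ5 _ (c1 j)
    refine Ideal.mem_comap.2 (Ideal.mem_span_range_iff_exists_fun.2 ⟨b, inj ?_⟩)
    rw [map_sum, ψ1, c2]
    exact Finset.sum_congr rfl fun j _ => by rw [map_mul, hb, ψ1, xs2]
  · rintro _ ⟨i, rfl⟩
    exact (IsLocalization.AtPrime.to_map_mem_maximal_iff _ p _).2 (xs1 i)
  · rw [hD, map_add, map_add, map_add, hD, hD]
  · rw [hD, map_mul, Derivation.leibniz, map_add, map_mul, map_mul, hD, hD, smul_eq_mul,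
      smul_eq_mul]
  · have e := fr.dual (Fin.castAdd r i) (Fin.castAdd r i')
    rw [Fin.append_left] at e
    rw [hD, ψ1, xs2, e]
    by_cases n : i = i'
    · simp [n]
    · simp [n]

/-- poles along the zeros of `w` only -/
def Rq (q : Ideal S) (w : S) (z : F) : Prop := ∃ n : ℕ, (w : F) ^ n * z ∈ Lo S q

/-- the algebraic theorem on the affine model -/
theorem key (pu : PU0) (cm : CM) (h : Aff N S) (h' : Aff (N + c) S') (sm : Algebra.Smooth ℂ S')
    {π : S' →ₐ[ℂ] S} (hs : Function.Surjective π) {f : Fin c → S'}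
    (hk : RingHom.ker π = Ideal.span (range f)) [q.IsPrime] [(q.comap π).IsPrime] {k : ℕ}
    {x : Fin k → Localization.AtPrime (q.comap π)} {D : Fin k → _ → _} (eu : Eu x D) {κ : Type}
    [Fintype κ] {W : κ → S} {u : κ → F} {a : F} {r : ℕ} (r0 : 0 < r) (w0 : ∀ b, (W b : F) ≠ 0)
    (u0 : ∀ b, u b ≠ 0) (a0 : a ≠ 0) (e1 : ∀ b, Rq q (W b) (u b ^ r / a))
    (e2 : ∀ b, Rq q (W b) (a / u b ^ r)) (e3 : ∀ b b', Rq q (W b * W b') (u b / u b'))
    (cov : ∀ p ≤ q, p.IsPrime → p.height ≤ 2 → ∃ b, W b ∉ p) :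
    ∃ τ, τ ≠ 0 ∧ ∀ b, Rq q (W b) (u b * τ) ∧ Rq q (W b) (u b * τ)⁻¹ := by
  choose w hw using fun b => hs (W b)
  let L := Localization.AtPrime (q.comap π)
  let A : S' →+* L := algebraMap S' L
  obtain ⟨φ, φ1, φ2, φ3⟩ := ex_lift (q.comap π) (S.val.comp π).toRingHom
    fun t ht => Hr.ne_of_notMem (q := q) ht
  replace φ1 : ∀ a, φ (A a) = π a := φ1
  have rw : ∀ (v : S') (z : F), z ∈ Rw φ (A v) ↔ Rq q (π v) z := fun v z => by
    refine ⟨fun ⟨b, n, e⟩ => ⟨n, ?_⟩, fun ⟨n, s, t, ht, e⟩ => ?_⟩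
    · obtain ⟨s, t, ht, -, e'⟩ := φ2 b
      exact ⟨π s, π t, ht, by rw [← φ1, e, e']; rfl⟩
    · obtain ⟨s, rfl⟩ := hs s
      obtain ⟨t, rfl⟩ := hs t
      obtain ⟨b, e'⟩ := φ3 s t ht
      exact ⟨b, n, by rw [φ1, e, e']; rfl⟩
  have idf : Id (fun i => A (f i)) = (RingHom.ker π).map A := by
    rw [hk, Ideal.map_span, ← range_comp]
    rfl
  have ker : ∀ b, φ b = 0 ↔ b ∈ Id fun i => A (f i) := fun b => by
    rw [idf]
    refine ⟨fun e => ?_, fun e => ?_⟩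
    · obtain ⟨s, t, ht, e1, e2⟩ := φ2 b
      have s0 : π s = 0 := Subtype.ext
        ((div_eq_zero_iff.1 (e2.symm.trans e)).resolve_right (Hr.ne_of_notMem (q := q) ht))
      rw [← Ideal.mul_unit_mem_iff_mem _ (un _ ht), e1]
      exact Ideal.mem_map_of_mem _ s0
    · refine (RingHom.mem_ker (f := φ)).1 (Ideal.map_le_iff_le_comap.2 (fun s hs => ?_) e)
      exact (φ1 s).trans (by rw [RingHom.mem_ker.1 hs]; rfl)
  have kq : RingHom.ker π ≤ q.comap π := fun a e =>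
    Ideal.mem_comap.2 ((RingHom.mem_ker.1 e).symm ▸ q.zero_mem)
  have := P299.R.isRegularRing_of_smooth_of_atPrime ℂ S' L (q.comap π)
  have := IsRegularLocalRing.of_isRegularRing_of_isLocalRing (R := L)
  have := RingHom.ker_isPrime π
  obtain ⟨qr, c3⟩ := cm L F c φ _ ker (by
    have e := ht_comap h h' hs ⊥
    rw [Ideal.height_bot, zero_add] at e
    rw [idf, IsLocalization.height_map_of_disjoint (q.comap π).primeCompl _
      (disjoint_left.2 fun a x y => x (kq y))]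
    exact e)
  have bs : Bs φ fun i => A (f i) := ⟨inferInstance, fun n hn => by
    simpa using (Nat.cast_ne_zero.2 hn.ne' : (n : ℂ) ≠ 0).isUnit.map (algebraMap ℂ L), ker,
    fun z => by
      obtain ⟨s, t, rfl⟩ := h.fr z
      obtain ⟨s, rfl⟩ := hs s
      obtain ⟨t, rfl⟩ := hs t
      by_cases e : (π t : F) = 0
      · exact ⟨0, 1, by simp, by simp [e]⟩
      · exact ⟨A s, A t, by rwa [φ1], by rw [φ1, φ1, mul_div_cancel₀ _ e]⟩, qr⟩
  have dt : Dt φ (fun b => A (w b)) u a r :=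
    ⟨r0, fun b => by rw [φ1, hw]; exact w0 b, u0, a0, fun b => by rw [rw, hw]; exact e1 b,
      fun b => by rw [rw, hw]; exact e2 b,
      fun b b' => by rw [← map_mul, rw, map_mul, hw, hw]; exact e3 b b'⟩
  obtain ⟨τ, τ0, hτ⟩ := pu L F c φ _ bs k _ D κ _ _ a r eu dt (c3 κ _ fun P hP le ht => by
    have k1 : RingHom.ker π ≤ P.comap A := Ideal.map_le_iff_le_comap.1 (idf ▸ le)
    have k2 : P.comap A ≤ q.comap π := fun s hs => by_contra fun n =>
      hP.ne_top (P.eq_top_of_isUnit_mem hs (un _ n))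
    have k3 : ((P.comap A).map π).IsPrime := Ideal.map_isPrime_of_surjective hs k1
    have k4 : ((P.comap A).map π).comap π = P.comap A := by
      rw [Ideal.comap_map_of_surjective _ hs]
      exact sup_eq_left.2 k1
    have k5 := ht_comap h h' hs ((P.comap A).map π)
    rw [k4, show (P.comap A).height = P.height from
      IsLocalization.height_under (q.comap π).primeCompl P] at k5
    rw [k5, add_comm] at ht
    obtain ⟨b, hb⟩ := cov _ (Ideal.map_le_iff_le_comap.2 k2) k3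
      ((ENat.add_le_add_iff_left (ENat.natCast_ne_top c)).1 ht)
    exact ⟨b, fun n => hb (hw b ▸ Ideal.mem_map_of_mem π (Ideal.mem_comap.2 n))⟩)
  exact ⟨τ, τ0, fun b => by simpa only [rw, hw] using hτ b⟩

theorem Rq.nn {w : S} {z : F} (h : Rq q w z) (w0 : (w : F) ≠ 0) (z0 : z ≠ 0) (hR : PDat S q R)
    (o : R.ord (w : F) = 0) : 0 ≤ R.ord z := by
  obtain ⟨n, e⟩ := h
  have := lo_nn hR e
  rwa [Pl.ord_mul _ (pow_ne_zero _ w0) z0, Pl.ord_pow, o, mul_zero, zero_add] at this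

/-- a finite cover of the points of codimension at most two -/
theorem cover (hrt : HRT) (h : Aff N S) (hn : IsIntegrallyClosed S) (β : Pl F → ℝ) {a : F}
    (ha : ∀ R, PDat S q R → R.ord a = 0 → β R = 0)
    (k : ∀ p ≤ q, p.IsPrime → p.height ≤ 2 → ∃ u : F, u ≠ 0 ∧ ∀ R, PDat S p R → β R = R.ord u) :
    ∃ (κ : Type) (_ : Fintype κ) (W : κ → S) (U : κ → F), (∀ b, (W b : F) ≠ 0) ∧ (∀ b, U b ≠ 0) ∧
      (∀ b R, PDat S q R → R.ord (W b : F) = 0 → β R = R.ord (U b)) ∧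
      ∀ p ≤ q, p.IsPrime → p.height ≤ 2 → ∃ b, W b ∉ p := by
  have ex : ∀ p : {p : Ideal S // p ≤ q ∧ p.IsPrime ∧ p.height ≤ 2}, ∃ (w : S) (u : F), w ∉ p.1 ∧
      u ≠ 0 ∧ ∀ R, PDat S q R → R.ord (w : F) = 0 → β R = R.ord u := by
    rintro ⟨p, p1, p2, p3⟩
    obtain ⟨u, u0, hu⟩ := k p p1 p2 p3
    obtain ⟨w, w1, w2⟩ := near hrt h hn p2 β ha hu
    exact ⟨w, u, w1, u0, w2⟩
  choose W U W1 U0 W2 using ex
  have := h.noeth
  obtain ⟨T, T1, T2⟩ := (Submodule.fg_span_iff_fg_span_finset_subset (R := S) (range W)).1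
    (IsNoetherian.noetherian _)
  choose ι hι using fun b : T => T1 b.2
  refine ⟨T, inferInstance, fun b => W (ι b), fun b => U (ι b), fun b => Hr.ne_of_notMem (W1 _),
    fun b => U0 _, fun b => W2 _, fun p p1 p2 p3 => by_contra fun n => ?_⟩
  have e : W ⟨p, p1, p2, p3⟩ ∈ Submodule.span S (T : Set S) :=
    T2 ▸ Submodule.subset_span ⟨_, rfl⟩
  refine W1 ⟨p, p1, p2, p3⟩ ((Submodule.span_le (p := p)).2 (fun b hb => ?_) e)
  by_contra n'
  exact n ⟨⟨b, hb⟩, by show W (ι ⟨b, hb⟩) ∉ p; rw [hι]; exact n'⟩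

end Pq

open Pq in
theorem purr : PURR := by
  intro pu cm eig der hrt res N c Q F F' _ _ _ _ G S G' S' π f q y m g pr l hq hb hc
  have hq' : (q.comap π).IsPrime := Ideal.comap_isPrime π q
  obtain ⟨J, hJ⟩ := eig (N + c)
  obtain ⟨-, k, r, x, t, -, -, par, -, -⟩ := hJ F' S' ⊥ _ l.aff l.sm inferInstance
    (fun σ hσ a ha => by rwa [Subgroup.mem_bot.1 hσ]) hq'
  have dim : N + c = k + r := Gm.ff_uniq par.aff.ff l.aff.ff
  obtain ⟨D', fr, pre, -⟩ := der k r F' S' _ x t par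
  have up : H.Up N π q f (Fin.append x fun i => (t i : F')) D' :=
    ⟨pr.aff, pr.nor, par.aff, l.sm, by omega, l.sur, hq,
      fun i => (RingHom.mem_ker (f := π)).1 (l.ker ▸ Ideal.subset_span ⟨i, rfl⟩), fun a ha =>
      ⟨1, by rw [map_one]; exact (Ideal.ne_top_iff_one q).1 hq.ne_top, by
        rw [one_mul, ← l.ker]; exact ha⟩, fr, fun a => by
      refine Fin.addCases (fun a => ?_) (fun a => ?_) a
      · obtain ⟨s, -, e⟩ := par.mem a
        rw [Fin.append_left, ← e]; exact s.2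
      · rw [Fin.append_right]; exact (t a).2, pre⟩
  obtain ⟨j, j0, -, kj⟩ := res F F' S S' π q N c _ f _ D' up y pr.fr
  have m0 : (m : ℝ) ≠ 0 := Nat.cast_ne_zero.2 pr.pos.ne'
  obtain ⟨a, a0, oa⟩ : ∃ a : F, a ≠ 0 ∧
      ∀ R, PDat S q R → (R.ord a : ℝ) = m * ((1 - ld y m g R) * Q) :=
    ⟨(g / j ^ m) ^ Q, pow_ne_zero _ (div_ne_zero pr.ne (pow_ne_zero _ j0)), fun R hR => by
      rw [Pl.ord_pow, Pl.ord_div _ pr.ne (pow_ne_zero _ j0), Pl.ord_pow, ld, kj R hR]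
      push_cast
      field_simp
      ring⟩
  obtain ⟨κ, _, W, U, w0, U0, W2, cov⟩ := cover (q := q) (a := a) hrt pr.aff pr.nor
    (fun R => (1 - ld y m g R) * Q) (fun R hR e => by
      have := oa R hR
      rw [e, Int.cast_zero] at this
      exact (mul_eq_zero.1 this.symm).resolve_left m0)
    fun p p1 p2 p3 => (hc p p1 p2 p3).imp fun _ k => k.2
  have ou : ∀ b R, PDat S q R → R.ord (W b : F) = 0 → R.ord a = R.ord (U b ^ m) :=
    fun b R hR o => by
      have := oa R hR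
      rw [W2 _ R hR o] at this
      rw [Pl.ord_pow]
      exact_mod_cast this
  obtain ⟨x', D, eu⟩ := eu par fr pre
  obtain ⟨τ, τ0, hτ⟩ := key pu cm pr.aff l.aff l.sm l.sur l.ker eu pr.pos w0 U0 a0
    (fun b => clear hrt pr.aff pr.nor hq (w0 b) fun R hR o => by
      rw [Pl.ord_div _ (pow_ne_zero _ (U0 _)) a0, ou b R hR o, sub_self])
    (fun b => clear hrt pr.aff pr.nor hq (w0 b) fun R hR o => by
      rw [Pl.ord_div _ a0 (pow_ne_zero _ (U0 _)), ou b R hR o, sub_self])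
    (fun b b' => clear hrt pr.aff pr.nor hq (mul_ne_zero (w0 b) (w0 b')) fun R hR o => by
      rw [MulMemClass.coe_mul, Pl.ord_mul _ (w0 b) (w0 b')] at o
      have n1 := nn hR (W b)
      have n2 := nn hR (W b')
      have e1 := (W2 _ R hR (by omega : R.ord (W b : F) = 0)).symm.trans
        (W2 _ R hR (by omega : R.ord (W b' : F) = 0))
      rw [Pl.ord_div _ (U0 _) (U0 _), Int.cast_injective e1, sub_self]) cov
  have fin : ∀ R, PDat S q R → (1 - ld y m g R) * Q = R.ord τ⁻¹ := fun R hR => by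
    obtain ⟨p, p1, p2, p3⟩ := id hR
    obtain ⟨b, hb⟩ := cov p p1 (Hr.cen_prime p2) (ht_cen pr.aff p2 p3)
    have o := Hr.cen_ord p2 hb
    have z0 := mul_ne_zero (U0 b) τ0
    have n1 := (hτ b).1.nn (w0 b) z0 hR o
    have n2 := (hτ b).2.nn (w0 b) (inv_ne_zero z0) hR o
    rw [Pl.ord_inv, Pl.ord_mul _ (U0 _) τ0] at n2
    rw [Pl.ord_mul _ (U0 _) τ0] at n1
    rw [W2 _ R hR o, Pl.ord_inv, show R.ord (U b) = -R.ord τ by omega]
  refine ⟨τ⁻¹, (hrt N F S pr.aff pr.nor).2.2.1 q hq _ fun R hR => ?_, inv_ne_zero τ0, fin⟩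
  obtain ⟨b, e⟩ := hb R hR
  refine (Pl.ord_nonneg_iff _ (inv_ne_zero τ0)).1 ?_
  have e' : ((R.ord τ⁻¹ : ℤ) : ℝ) = b := (fin R hR).symm.trans e
  exact_mod_cast e' ▸ Nat.cast_nonneg (α := ℝ) b

end Vale.Agent.P283R.Pu
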