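import Mathlib.RingTheory.MvPolynomial.Homogeneous
import Mathlib.RingTheory.RegularLocalRing.Defs
import Mathlib.RingTheory.Ideal.Height

/-!
# P283R, block PU: purity for complete intersections, the algebraic statements

`L` is a local ring, `φ : L → K` has the kernel `(f)` and `K` is the field of fractions of the image,
`E` is the completion of the local ring of `L` at `(f)`.
-/

open Set MvPolynomial

noncomputable section

namespace Vale.Agent.P283R.Pu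

section defs

variable {L K E : Type} [CommRing L] [Field K] [CommRing E] {c : ℕ} {κ : Type}

/-- a derivation -/
structure Dr {A : Type} [CommRing A] (D : A → A) : Prop where
  add : ∀ x y, D (x + y) = D x + D y
  mul : ∀ x y, D (x * y) = x * D y + y * D x

/-- the ideal of the `f i` -/
abbrev Id (f : Fin c → L) : Ideal L := Ideal.span (range f)

/-- `f` is quasi-regular -/
def Qr (φ : L →+* K) (f : Fin c → L) (J : ℕ → Ideal L) : Prop :=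
  ∀ (n : ℕ) (Φ : MvPolynomial (Fin c) L), Φ.IsHomogeneous n → eval f Φ ∈ J (n + 1) → map φ Φ = 0

/-- the base ring -/
structure Bs (φ : L →+* K) (f : Fin c → L) : Prop where
  noe : IsNoetherianRing L
  chr : ∀ n : ℕ, 0 < n → IsUnit (n : L)
  ker : ∀ a, φ a = 0 ↔ a ∈ Id f
  fr : ∀ x : K, ∃ a b, φ b ≠ 0 ∧ φ b * x = φ a
  qr : Qr φ f fun n => Id f ^ n

/-- the ring `R[1 / w]`, `R` the image of `φ` -/
def Rw (φ : L →+* K) (w : L) : Subring K where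
  carrier := {x | ∃ (a : L) (j : ℕ), φ w ^ j * x = φ a}
  one_mem' := ⟨1, 0, by simp⟩
  zero_mem' := ⟨0, 0, by simp⟩
  mul_mem' := fun ⟨a, i, h⟩ ⟨b, j, k⟩ => ⟨a * b, i + j, by rw [map_mul, ← h, ← k]; ring⟩
  add_mem' := fun ⟨a, i, h⟩ ⟨b, j, k⟩ => ⟨w ^ j * a + w ^ i * b, i + j, by
    rw [map_add, map_mul, map_mul, ← h, ← k, map_pow, map_pow]; ring⟩
  neg_mem' := fun ⟨a, i, h⟩ => ⟨-a, i, by rw [map_neg, ← h]; ring⟩

/-- the completion -/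
structure Fl (φ : L →+* K) (f : Fin c → L) (E : Type) [CommRing E] where
  /-- the inclusion -/
  ι : L →+* E
  /-- the residue -/
  ρ : E →+* K
  /-- the filtration -/
  J : ℕ → Ideal E
  res : ∀ a, ρ (ι a) = φ a
  top : J 0 = ⊤
  anti : Antitone J
  mul : ∀ a b x y, x ∈ J a → y ∈ J b → x * y ∈ J (a + b)
  ker : ∀ e, ρ e = 0 ↔ e ∈ J 1
  pow : ∀ n a, ι a ∈ J n ↔ a ∈ Id f ^ n
  den : ∀ e n, ∃ a w, φ w ≠ 0 ∧ ι w * e - ι a ∈ J n
  unit : ∀ e, ρ e ≠ 0 → IsUnit e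
  sep : ∀ e, (∀ n, e ∈ J n) → e = 0
  cpl : ∀ s : ℕ → E, (∀ n, s (n + 1) - s n ∈ J n) → ∃ e, ∀ n, e - s n ∈ J n
  der : ∀ D : L → L, Dr D → ∃ d : E → E, Dr d ∧ (∀ a, d (ι a) = ι (D a)) ∧
    ∀ n, ∀ e ∈ J (n + 1), d e ∈ J n

variable {φ : L →+* K} {f : Fin c → L}

/-- the closure of `L[1 / w]` -/
def Fl.T (F : Fl φ f E) (w : L) : Subring E where
  carrier := {e | ∀ n, ∃ (a : L) (j : ℕ), F.ι w ^ j * e - F.ι a ∈ F.J n}
  one_mem' n := ⟨1, 0, by simp⟩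
  zero_mem' n := ⟨0, 0, by simp⟩
  mul_mem' := fun {x y} h k n => by
    obtain ⟨a, i, h⟩ := h n
    obtain ⟨b, j, k⟩ := k n
    refine ⟨a * b, i + j, ?_⟩
    convert add_mem ((F.J n).mul_mem_left (F.ι w ^ j * y) h) ((F.J n).mul_mem_left (F.ι a) k)
      using 1
    rw [map_mul]; ring
  add_mem' := fun {x y} h k n => by
    obtain ⟨a, i, h⟩ := h n
    obtain ⟨b, j, k⟩ := k n
    refine ⟨w ^ j * a + w ^ i * b, i + j, ?_⟩
    convert add_mem ((F.J n).mul_mem_left (F.ι w ^ j) h) ((F.J n).mul_mem_left (F.ι w ^ i) k)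
      using 1
    rw [map_add, map_mul, map_mul, map_pow, map_pow]; ring
  neg_mem' := fun {x} h n => by
    obtain ⟨a, i, h⟩ := h n
    refine ⟨-a, i, ?_⟩
    convert neg_mem h using 1
    rw [map_neg]; ring

/-- the value of a polynomial at `f` -/
def Fl.ev (F : Fl φ f E) (Φ : MvPolynomial (Fin c) E) : E := eval (fun i => F.ι (f i)) Φ

/-- the basic properties of the completion -/
structure In (F : Fl φ f E) : Prop where
  qr : ∀ n (Φ : MvPolynomial (Fin c) E), Φ.IsHomogeneous n →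
    (F.ev Φ ∈ F.J (n + 1) ↔ map F.ρ Φ = 0)
  ev : ∀ n (Φ : MvPolynomial (Fin c) E), Φ.IsHomogeneous n → F.ev Φ ∈ F.J n
  ini : ∀ n, ∀ e ∈ F.J n, ∃ Φ : MvPolynomial (Fin c) E, Φ.IsHomogeneous n ∧
    e - F.ev Φ ∈ F.J (n + 1)
  str : ∀ w, φ w ≠ 0 → ∀ n, ∀ e ∈ F.J n, e ∈ F.T w → ∃ Φ : MvPolynomial (Fin c) E,
    Φ.IsHomogeneous n ∧ (∀ m, coeff m Φ ∈ F.T w) ∧ e - F.ev Φ ∈ F.J (n + 1)
  evT : ∀ w (Φ : MvPolynomial (Fin c) E), (∀ m, coeff m Φ ∈ F.T w) → F.ev Φ ∈ F.T w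
  sur : ∀ x, ∃ e, F.ρ e = x
  rT : ∀ w, φ w ≠ 0 → ∀ x, x ∈ Rw φ w ↔ ∃ e ∈ F.T w, F.ρ e = x
  cls : ∀ w e, (∀ n, ∃ t ∈ F.T w, e - t ∈ F.J n) → e ∈ F.T w
  iT : ∀ w a, F.ι a ∈ F.T w
  left : ∀ w w', F.T w ≤ F.T (w * w')
  right : ∀ w w', F.T w' ≤ F.T (w * w')
  dT : ∀ w (D : L → L) (d : E → E), Dr d → (∀ a, d (F.ι a) = F.ι (D a)) →
    (∀ n, ∀ e ∈ F.J (n + 1), d e ∈ F.J n) → ∀ e ∈ F.T w, d e ∈ F.T w

/-- on `D(w k)` the function `a` is a unit times the `r`-th power of `u k` -/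
structure Dt (φ : L →+* K) (w : κ → L) (u : κ → K) (a : K) (r : ℕ) : Prop where
  pos : 0 < r
  w0 : ∀ k, φ (w k) ≠ 0
  u0 : ∀ k, u k ≠ 0
  a0 : a ≠ 0
  e1 : ∀ k, u k ^ r / a ∈ Rw φ (w k)
  e2 : ∀ k, a / u k ^ r ∈ Rw φ (w k)
  tr : ∀ k l, u k / u l ∈ Rw φ (w k * w l)

/-- depth three along the common zeros of the `w k` -/
def C3 (φ : L →+* K) (w : κ → L) : Prop :=
  ∀ C : Ideal L, (∀ k, ∃ j : ℕ, w k ^ j ∈ C) → ∀ y, φ y ≠ 0 → ∃ z₁ ∈ C, ∃ z₂ ∈ C,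
    (∀ n b, φ z₁ * φ n = φ y * φ b → ∃ a, φ n = φ y * φ a) ∧
    ∀ n b b', φ z₂ * φ n = φ y * φ b + φ z₁ * φ b' → ∃ a a', φ n = φ y * φ a + φ z₁ * φ a'

/-- cocycles -/
def Zc (φ : L →+* K) (w : κ → L) (u b : κ → K) : Prop :=
  ∀ k l, u k * (b k - b l) ∈ Rw φ (w k * w l)

/-- coboundaries -/
def Bd (φ : L →+* K) (w : κ → L) (u b : κ → K) : Prop := ∃ t, ∀ k, u k * (b k - t) ∈ Rw φ (w k)

/-- `Z / B` is finitely generated -/
def Fg (φ : L →+* K) (Z B : (κ → K) → Prop) : Prop :=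
  ∃ (m : ℕ) (z : Fin m → κ → K), (∀ i, Z (z i)) ∧
    ∀ b, Z b → ∃ a : Fin m → L, B fun k => b k - ∑ i, φ (a i) * z i k

/-- the cohomology is a finitely generated torsion module -/
def Hf (φ : L →+* K) (w : κ → L) (u : κ → K) : Prop :=
  (∃ x, φ x ≠ 0 ∧ ∀ b, Zc φ w u b → Bd φ w u fun k => φ x * b k) ∧ Fg φ (Zc φ w u) (Bd φ w u)

/-- Hartogs -/
def Ht (φ : L →+* K) (w : κ → L) : Prop := ∀ x : K, (∀ k, x ∈ Rw φ (w k)) → x ∈ Rw φ 1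

/-- the lift of the data to the completion -/
structure Gm (F : Fl φ f E) (w : κ → L) (u : κ → K) (a : K) (r : ℕ) (γ : κ → E) (α : E) :
    Prop where
  rg : ∀ k, F.ρ (γ k) = u k
  ra : F.ρ α = a
  eps : ∀ k, ∃ ε ∈ F.T (w k), ∃ ε' ∈ F.T (w k), ε * ε' = 1 ∧ γ k ^ r = α * ε
  tr : ∀ k l, ∃ g ∈ F.T (w k * w l), γ k = g * γ l

/-- parameters with dual derivations -/
structure Eu [IsLocalRing L] {n : ℕ} (x : Fin n → L) (D : Fin n → L → L) : Prop where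
  gen : IsLocalRing.maximalIdeal L = Id x
  dr : ∀ i, Dr (D i)
  dual : ∀ i j, D i (x j) = if i = j then 1 else 0

end defs

/-- a statement on base rings -/
def ForB (P : ∀ (L K : Type) [CommRing L] [Field K] (c : ℕ), (L →+* K) → (Fin c → L) → Prop) :
    Prop :=
  ∀ (L K : Type) [CommRing L] [Field K] (c : ℕ) (φ : L →+* K) (f : Fin c → L), Bs φ f →
    P L K c φ f

/-- **CPL**: the completion exists -/
def CPL : Prop := ForB fun _ _ _ _ _ φ f => ∃ (E : Type) (_ : CommRing E), Nonempty (Fl φ f E)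

/-- **INI** -/
def INI : Prop := ForB fun _ _ _ _ _ φ f => ∀ (E : Type) [CommRing E] (F : Fl φ f E), In F

/-- **GAM**: roots -/
def GAM : Prop := ForB fun L K _ _ _ φ f => ∀ (E : Type) [CommRing E] (F : Fl φ f E), In F →
  ∀ (κ : Type) (w : κ → L) (u : κ → K) (a : K) (r : ℕ), Dt φ w u a r → ∃ γ α, Gm F w u a r γ α

/-- **HF**: the cohomology -/
def HF : Prop := ForB fun L K _ _ _ φ _ => ∀ (κ : Type) [Fintype κ] (w : κ → L) (u : κ → K) (a : K)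
  (r : ℕ), Dt φ w u a r → C3 φ w → Ht φ w ∧ Hf φ w u

/-- **GR**: Hilbert's basis theorem, graded form -/
def GR : Prop := ∀ (L K : Type) [CommRing L] [IsNoetherianRing L] [Field K] (φ : L →+* K) (c : ℕ)
  (κ : Type) [Fintype κ] (Z B₀ : (κ → K) → Prop) (B : ℕ → Set (κ → MvPolynomial (Fin c) K)),
    B₀ 0 → (∀ b b', B₀ b → B₀ b' → B₀ (b + b')) → (∀ a b, B₀ b → B₀ fun k => φ a * b k) →
    Fg φ Z B₀ →
    (∀ n, ∀ b ∈ B n, (∀ k, (b k).IsHomogeneous n) ∧ ∀ m, Z fun k => coeff m (b k)) →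
    ∃ n₀ : ℕ, ∀ G : ℕ → Set (κ → MvPolynomial (Fin c) K), (∀ n, 0 ∈ G n) →
      (∀ n, ∀ b ∈ G n, ∀ b' ∈ G n, b + b' ∈ G n) →
      (∀ n a, ∀ b ∈ G n, (fun k => C (φ a) * b k) ∈ G n) →
      (∀ n i, ∀ b ∈ G n, (fun k => X i * b k) ∈ G (n + 1)) → (∀ n ≤ n₀, B n ⊆ G n) →
      (∀ n b, (∀ k, (b k).IsHomogeneous n) → (∀ m, B₀ fun k => coeff m (b k)) → b ∈ G n) →
      ∀ n, B n ⊆ G n

/-- **ML**: a section on the completion -/
def ML : Prop := ForB fun L K _ _ _ φ f => ∀ (E : Type) [CommRing E] (F : Fl φ f E), In F →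
  ∀ (κ : Type) [Fintype κ] (w : κ → L) (u : κ → K) (a : K) (r : ℕ) (γ : κ → E) (α : E),
    Dt φ w u a r → Gm F w u a r γ α → Hf φ w u → ∃ s, F.ρ s ≠ 0 ∧ ∀ k, γ k * s ∈ F.T (w k)

/-- **HART**: Hartogs on the completion -/
def HART : Prop := ForB fun L _ _ _ _ φ f => ∀ (E : Type) [CommRing E] (F : Fl φ f E), In F →
  ∀ (κ : Type) (w : κ → L), (∀ k, φ (w k) ≠ 0) → Ht φ w →
    ∀ e, (∀ k, e ∈ F.T (w k)) → e ∈ F.T 1

/-- **STAB**: sets which are stable under the derivations -/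
def STAB : Prop := ForB fun L _ _ _ _ φ f => ∀ [IsLocalRing L] (E : Type) [CommRing E]
  (F : Fl φ f E) (n : ℕ) (x : Fin n → L) (D : Fin n → L → L) (d : Fin n → E → E) (N : Set E),
    Eu x D → (∀ i, Dr (d i)) → (∀ i a, d i (F.ι a) = F.ι (D i a)) →
    (∀ i n, ∀ e ∈ F.J (n + 1), d i e ∈ F.J n) → (∀ t ∈ N, t ∈ F.T 1) →
    (∀ t ∈ N, ∃ a ∈ IsLocalRing.maximalIdeal L, F.ρ t = φ a) →
    (∀ i, ∀ t ∈ N, ∃ t₁ ∈ N, ∃ t₂ ∈ N, d i t = t₁ + t₂) → ∀ t ∈ N, F.ρ t = 0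

/-- **PU0**: the theorem -/
def PU0 : Prop := ForB fun L K _ _ _ φ _ => ∀ [IsLocalRing L] (n : ℕ) (x : Fin n → L)
  (D : Fin n → L → L) (κ : Type) [Fintype κ] (w : κ → L) (u : κ → K) (a : K) (r : ℕ), Eu x D →
    Dt φ w u a r → C3 φ w → ∃ t : K, t ≠ 0 ∧ ∀ k, u k * t ∈ Rw φ (w k) ∧ (u k * t)⁻¹ ∈ Rw φ (w k)

/-- **CM**: complete intersections in regular local rings -/
def CM : Prop := ∀ (L K : Type) [CommRing L] [IsRegularLocalRing L] [Field K] (c : ℕ)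
  (φ : L →+* K) (f : Fin c → L), (∀ a, φ a = 0 ↔ a ∈ Id f) → (Id f).height = c →
    Qr φ f (fun n => Id f ^ n) ∧ ∀ (κ : Type) (w : κ → L),
      (∀ P : Ideal L, P.IsPrime → Id f ≤ P → P.height ≤ c + 2 → ∃ k, w k ∉ P) → C3 φ w

/-- **MLR** -/
def MLR : Prop := GR → ML

/-- **FIN** -/
def FIN : Prop := CPL → INI → GAM → HF → ML → HART → STAB → PU0

end Vale.Agent.P283R.Pu
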